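import Vale.Agent.P347.Sm

/-! P229: families of smooth functions on the plane and uniform bounds. -/

open Set Finset
open scoped ContDiff Topology
noncomputable section
namespace Vale.Agent.P229
open Vale.Agent.P347

abbrev P := ℝ × ℝ
abbrev Fm (ι : Type) := ι → Sm P

variable {ι : Type}

/-- Directional derivative of a family. -/
def Dv (v : P) : Fm ι →ₗ[ℝ] Fm ι where
  toFun f := fun d => Sm.D v (f d)
  map_add' f g := by ext1 d; exact map_add _ _ _
  map_smul' c f := by ext1 d; exact (Sm.D v).map_smul c (f d)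

abbrev Dx : Fm ι →ₗ[ℝ] Fm ι := Dv (1, 0)
abbrev Dy : Fm ι →ₗ[ℝ] Fm ι := Dv (0, 1)

lemma Dv_apply (v : P) (f : Fm ι) (d : ι) : Dv v f d = Sm.D v (f d) := rfl
lemma Dv_mul (v : P) (f g : Fm ι) : Dv v (f * g) = Dv v f * g + f * Dv v g :=
  funext fun d => Sm.D_mul v (f d) (g d)
lemma Dv_comm (v w : P) (f : Fm ι) : Dv v (Dv w f) = Dv w (Dv v f) :=
  funext fun d => Sm.D_comm v w (f d)

/-- Constants depending on the index. -/
def cst (a : ι → ℝ) : Fm ι := fun d => algebraMap ℝ _ (a d)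
/-- First coordinate. -/
def cX : Fm ι := fun _ => Sm.of Prod.fst contDiff_fst
/-- Second coordinate. -/
def cY : Fm ι := fun _ => Sm.of Prod.snd contDiff_snd

@[simp] lemma cst_apply (a : ι → ℝ) (d z) : cst a d z = a d := rfl
@[simp] lemma cX_apply (d : ι) (z) : cX d z = z.1 := rfl
@[simp] lemma cY_apply (d : ι) (z) : cY d z = z.2 := rfl
@[simp] lemma Dv_cst (v : P) (a : ι → ℝ) : Dv v (cst a) = 0 :=
  funext fun d => (Sm.D v).map_algebraMap (a d)
@[simp] lemma Dv_one (v : P) : Dv v (1 : Fm ι) = 0 := funext fun _ => (Sm.D v).map_one_eq_zero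
lemma Dv_cX (v : P) : Dv v (cX : Fm ι) = cst fun _ => v.1 :=
  funext fun _ => Sm.D_of_clm v (ContinuousLinearMap.fst ℝ ℝ ℝ) _ fun _ => rfl
lemma Dv_cY (v : P) : Dv v (cY : Fm ι) = cst fun _ => v.2 :=
  funext fun _ => Sm.D_of_clm v (ContinuousLinearMap.snd ℝ ℝ ℝ) _ fun _ => rfl
@[simp] lemma Dx_cX : Dx (cX : Fm ι) = 1 := by rw [Dv_cX]; ext; simp
@[simp] lemma Dy_cX : Dy (cX : Fm ι) = 0 := by rw [Dv_cX]; ext; simp
@[simp] lemma Dx_cY : Dx (cY : Fm ι) = 0 := by rw [Dv_cY]; ext; simp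
@[simp] lemma Dy_cY : Dy (cY : Fm ι) = 1 := by rw [Dv_cY]; ext; simp

lemma it_add (n : ℕ) (f g : Fm ι) : Dy^[n] (f + g) = Dy^[n] f + Dy^[n] g := by
  simp only [← Module.End.pow_apply, map_add]
lemma it_neg (n : ℕ) (f : Fm ι) : Dy^[n] (-f) = -Dy^[n] f := by
  simp only [← Module.End.pow_apply, map_neg]
lemma it_sub (n : ℕ) (f g : Fm ι) : Dy^[n] (f - g) = Dy^[n] f - Dy^[n] g := by
  simp only [← Module.End.pow_apply, map_sub]
lemma it_smul (n : ℕ) (c : ℝ) (f : Fm ι) : Dy^[n] (c • f) = c • Dy^[n] f := by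
  simp only [← Module.End.pow_apply, map_smul]
lemma it_Dx (n : ℕ) (f : Fm ι) : Dy^[n] (Dx f) = Dx (Dy^[n] f) := by
  induction n generalizing f with
  | zero => rfl
  | succ n ih => rw [Function.iterate_succ_apply, Dv_comm, ih, Function.iterate_succ_apply]
lemma it_succ (n : ℕ) (f : Fm ι) : Dy^[n + 1] f = Dy (Dy^[n] f) := Function.iterate_succ_apply' _ _ _

lemma it_mul (n : ℕ) (f g : Fm ι) : Dy^[n] (f * g) =
    ∑ i ∈ range (n + 1), (n.choose i : ℝ) • (Dy^[i] f * Dy^[n - i] g) := by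
  have : Dy^[n] (f * g) = ∑ p ∈ antidiagonal n, n.choose p.1 • (Dy^[p.1] f * Dy^[p.2] g) := by
    induction n with
    | zero => simp
    | succ n ih =>
      rw [it_succ, ih, map_sum, sum_antidiagonal_choose_succ_nsmul
        (fun i j => Dy^[i] f * Dy^[j] g), ← sum_add_distrib]
      refine sum_congr rfl fun p hp => ?_
      rw [map_nsmul, Dv_mul, it_succ, it_succ, smul_add, add_comm,
        Nat.choose_symm_of_eq_add (mem_antidiagonal.mp hp).symm]
  rw [this, Finset.Nat.sum_antidiagonal_eq_sum_range_succ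
    (fun i j => n.choose i • (Dy^[i] f * Dy^[j] g))]
  exact sum_congr rfl fun i _ => (Nat.cast_smul_eq_nsmul ℝ _ _).symm

/-- Vanishing on a family of regions. -/
def Zr (Q : ι → Set P) (f : Fm ι) : Prop := ∀ d, ∀ z ∈ Q d, f d z = 0

/-- Uniform bound by a weight. -/
def Ob (Q : ι → Set P) (w : ι → P → ℝ) (f : Fm ι) : Prop :=
  ∃ C, 0 ≤ C ∧ ∀ d, ∀ z ∈ Q d, |f d z| ≤ C * w d z

variable {Q O : ι → Set P} {w w' H : ι → P → ℝ} {f g : Fm ι} {n : ℕ}

lemma Zr.D (hO : ∀ d, IsOpen (O d)) (h : Zr O f) (v : P) : Zr O (Dv v f) := fun d z hz => by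
  have : (f d : P → ℝ) =ᶠ[𝓝 z] fun _ => 0 :=
    Filter.eventually_of_mem ((hO d).mem_nhds hz) (h d)
  rw [Dv_apply, Sm.D_apply, this.fderiv_eq]; simp

lemma Zr.it (hO : ∀ d, IsOpen (O d)) (h : Zr O f) (n : ℕ) : Zr O (Dy^[n] f) := by
  induction n with
  | zero => exact h
  | succ n ih => rw [it_succ]; exact ih.D hO _

lemma Zr.ob (h : Zr Q f) (w) : Ob Q w f := ⟨0, le_rfl, fun d z hz => by simp [h d z hz]⟩

namespace Ob
lemma zero : Ob Q w (0 : Fm ι) := Zr.ob (fun _ _ _ => rfl) w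
lemma add (hf : Ob Q w f) (hg : Ob Q w g) : Ob Q w (f + g) := by
  obtain ⟨C, h0, h⟩ := hf
  obtain ⟨C', h0', h'⟩ := hg
  exact ⟨C + C', by positivity, fun d z hz => (abs_add_le _ _).trans
    ((add_le_add (h d z hz) (h' d z hz)).trans (add_mul _ _ _).ge)⟩
lemma neg (hf : Ob Q w f) : Ob Q w (-f) := by
  obtain ⟨C, h0, h⟩ := hf
  exact ⟨C, h0, fun d z hz => (abs_neg _).trans_le (h d z hz)⟩
lemma sub (hf : Ob Q w f) (hg : Ob Q w g) : Ob Q w (f - g) := by
  rw [sub_eq_add_neg]; exact hf.add hg.neg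
lemma mul' (hf : Ob Q w f) (hg : Ob Q w' g) : Ob Q (fun d z => w d z * w' d z) (f * g) := by
  obtain ⟨C, h0, h⟩ := hf
  obtain ⟨C', h0', h'⟩ := hg
  refine ⟨C * C', by positivity, fun d z hz => (abs_mul _ _).trans_le ?_⟩
  exact (mul_le_mul (h d z hz) (h' d z hz) (abs_nonneg _)
    ((abs_nonneg _).trans (h d z hz))).trans_eq (by ring)
lemma mono (hf : Ob Q w f) (h : ∀ d, ∀ z ∈ Q d, w d z ≤ w' d z) : Ob Q w' f := by
  obtain ⟨C, h0, h1⟩ := hf
  exact ⟨C, h0, fun d z hz => (h1 d z hz).trans (mul_le_mul_of_nonneg_left (h d z hz) h0)⟩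
lemma bmul (hf : Ob Q 1 f) (hg : Ob Q w g) : Ob Q w (f * g) := by
  simpa using hf.mul' hg
lemma mulb (hf : Ob Q w f) (hg : Ob Q 1 g) : Ob Q w (f * g) := by
  simpa using hf.mul' hg
lemma sub_set {Q' : ι → Set P} (hf : Ob Q w f) (h : ∀ d, Q' d ⊆ Q d) : Ob Q' w f := by
  obtain ⟨C, h0, h1⟩ := hf
  exact ⟨C, h0, fun d z hz => h1 d z (h d hz)⟩
lemma smul (c : ℝ) (hf : Ob Q w f) : Ob Q w (c • f) := by
  obtain ⟨C, h0, h⟩ := hf
  refine ⟨|c| * C, by positivity, fun d z hz => (abs_mul _ _).trans_le ?_⟩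
  rw [mul_assoc]; exact mul_le_mul_of_nonneg_left (h d z hz) (abs_nonneg _)
lemma one : Ob Q 1 (1 : Fm ι) := ⟨1, zero_le_one, fun _ _ _ => by simp⟩
lemma sum {κ : Type*} {s : Finset κ} {F : κ → Fm ι} (h : ∀ i ∈ s, Ob Q w (F i)) :
    Ob Q w (∑ i ∈ s, F i) :=
  Finset.sum_induction F (Ob Q w) (fun _ _ => add) zero h
lemma congr (hf : Ob Q w f) (h : Zr Q (g - f)) : Ob Q w g := by
  simpa using (h.ob w).add hf
lemma of_eq (hf : Ob Q w f) (h : ∀ d, ∀ z ∈ Q d, g d z = f d z) : Ob Q w g :=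
  hf.congr fun d z hz => sub_eq_zero.mpr (h d z hz)
lemma of_le {a : ι → ℝ} (h : ∀ d, ∀ z ∈ Q d, |a d| ≤ w d z) : Ob Q w (cst a) :=
  ⟨1, zero_le_one, fun d z hz => by simpa using h d z hz⟩
end Ob

/-- All partial derivatives up to order `n` are uniformly bounded. -/
def Bd (O : ι → Set P) : ℕ → Fm ι → Prop
  | 0, f => Ob O 1 f
  | n + 1, f => Ob O 1 f ∧ Bd O n (Dx f) ∧ Bd O n (Dy f)

namespace Bd
lemma ob (h : Bd O n f) : Ob O 1 f := by cases n; exacts [h, h.1]
lemma dx (h : Bd O (n + 1) f) : Bd O n (Dx f) := h.2.1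
lemma dy (h : Bd O (n + 1) f) : Bd O n (Dy f) := h.2.2
lemma pred (h : Bd O (n + 1) f) : Bd O n f := by
  induction n generalizing f with
  | zero => exact h.1
  | succ n ih => exact ⟨h.1, ih h.dx, ih h.dy⟩
lemma le {m : ℕ} (h : Bd O m f) (hn : n ≤ m) : Bd O n f := by
  induction hn with
  | refl => exact h
  | step _ ih => exact ih h.pred
lemma zero : Bd O n (0 : Fm ι) := by
  induction n with
  | zero => exact Ob.zero
  | succ n ih => exact ⟨Ob.zero, by simpa using ih, by simpa using ih⟩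
lemma const (h : Ob O 1 f) (hx : Dx f = 0) (hy : Dy f = 0) : Bd O n f := by
  cases n with
  | zero => exact h
  | succ n => exact ⟨h, hx ▸ zero, hy ▸ zero⟩
lemma one : Bd O n (1 : Fm ι) := const Ob.one (by simp) (by simp)
lemma cst {a : ι → ℝ} (h : Ob O 1 (cst a)) : Bd O n (cst a) := const h (by simp) (by simp)
lemma add (hf : Bd O n f) (hg : Bd O n g) : Bd O n (f + g) := by
  induction n generalizing f g with
  | zero => exact Ob.add hf hg
  | succ n ih =>
    exact ⟨hf.1.add hg.1, by rw [map_add]; exact ih hf.dx hg.dx, by rw [map_add]; exact ih hf.dy hg.dy⟩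
lemma smul (c : ℝ) (hf : Bd O n f) : Bd O n (c • f) := by
  induction n generalizing f with
  | zero => exact Ob.smul c hf
  | succ n ih =>
    exact ⟨hf.1.smul c, by rw [map_smul]; exact ih hf.dx, by rw [map_smul]; exact ih hf.dy⟩
lemma neg (hf : Bd O n f) : Bd O n (-f) := by simpa using hf.smul (-1)
lemma sub (hf : Bd O n f) (hg : Bd O n g) : Bd O n (f - g) := by
  rw [sub_eq_add_neg]; exact hf.add hg.neg
lemma mul (hf : Bd O n f) (hg : Bd O n g) : Bd O n (f * g) := by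
  induction n generalizing f g with
  | zero => exact Ob.bmul hf hg
  | succ n ih =>
    exact ⟨hf.1.bmul hg.1, by rw [Dv_mul]; exact (ih hf.dx hg.pred).add (ih hf.pred hg.dx),
      by rw [Dv_mul]; exact (ih hf.dy hg.pred).add (ih hf.pred hg.dy)⟩
lemma congr (hO : ∀ d, IsOpen (O d)) (hf : Bd O n f) (h : Zr O (g - f)) : Bd O n g := by
  induction n generalizing f g with
  | zero => exact Ob.congr hf h
  | succ n ih =>
    exact ⟨hf.1.congr h, ih hf.dx (by rw [← map_sub]; exact h.D hO _),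
      ih hf.dy (by rw [← map_sub]; exact h.D hO _)⟩
lemma inv (hO : ∀ d, IsOpen (O d)) (hf : Bd O n f) (hg : Ob O 1 g) (h : Zr O (g * f - 1)) :
    Bd O n g := by
  have e : ∀ v, Zr O (Dv v g - -(g * g * Dv v f)) := fun v d z hz => by
    have h1 := h d z hz
    have h2 := h.D hO v d z hz
    simp only [map_sub, Dv_mul, Dv_one, Pi.sub_apply, Pi.add_apply, Pi.mul_apply, Pi.neg_apply,
      Pi.one_apply, Pi.zero_apply, Sm.sub_apply, Sm.add_apply, Sm.mul_apply, Sm.neg_apply,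
      Sm.one_apply, Sm.zero_apply] at h1 h2 ⊢
    linear_combination g d z * h2 - Dv v g d z * h1
  induction n with
  | zero => exact hg
  | succ n ih =>
    have := ih hf.pred
    exact ⟨hg, ((this.mul this).mul hf.dx).neg.congr hO (e _),
      ((this.mul this).mul hf.dy).neg.congr hO (e _)⟩
lemma it {i : ℕ} (h : Bd O (n + i) f) : Bd O n (Dy^[i] f) := by
  induction i generalizing f with
  | zero => exact h
  | succ i ih => exact ih (Bd.dy (n := n + i) h)
lemma it_ob {i : ℕ} (h : Bd O n f) (hi : i ≤ n) : Ob O 1 (Dy^[i] f) :=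
  (it (n := 0) (h.le (by omega))).ob
lemma cX (h : Ob O 1 (cX : Fm ι)) : Bd O n (cX : Fm ι) := by
  cases n with
  | zero => exact h
  | succ n => exact ⟨h, by simpa using one, by simpa using zero⟩
lemma cY (h : Ob O 1 (cY : Fm ι)) : Bd O n (cY : Fm ι) := by
  cases n with
  | zero => exact h
  | succ n => exact ⟨h, by simpa using zero, by simpa using one⟩
end Bd

end Vale.Agent.P229
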