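import Vale.Agent.P229.Base

/-! P229: classes controlling high derivatives in the second variable. -/

open Set Finset
open scoped ContDiff Topology
noncomputable section
namespace Vale.Agent.P229
open Vale.Agent.P347

variable {ι : Type} {Q O : ι → Set P} {H : ι → P → ℝ} {f g w U V s a b e a' b' e' : Fm ι} {n : ℕ}

/-- Low derivatives are bounded, all derivatives up to order `n` are dominated by `H`. -/
structure Tc (Q : ι → Set P) (H : ι → P → ℝ) (n : ℕ) (f : Fm ι) : Prop where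
  lo : ∀ i, i + 3 ≤ n → Ob Q 1 (Dy^[i] f)
  hi : ∀ i ≤ n, Ob Q H (Dy^[i] f)

namespace Tc
lemma prod (hf : Tc Q H n f) (hg : Tc Q H n g) {i j : ℕ} (hi : i ≤ n) (hj : j ≤ n)
    (h' : i + 3 ≤ n ∨ j + 3 ≤ n) : Ob Q H (Dy^[i] f * Dy^[j] g) :=
  h'.elim (fun h => (hf.lo i h).bmul (hg.hi j hj)) fun h => (hf.hi i hi).mulb (hg.lo j h)
lemma mul (hn : 5 ≤ n) (hf : Tc Q H n f) (hg : Tc Q H n g) : Tc Q H n (f * g) where
  lo i hi := by
    rw [it_mul]
    exact Ob.sum fun j hj => ((hf.lo j (by have := mem_range.mp hj; omega)).bmul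
      (hg.lo _ (by omega))).smul _
  hi i hi := by
    rw [it_mul]
    exact Ob.sum fun j hj => by
      have := mem_range.mp hj
      exact (hf.prod hg (by omega) (by omega) (by omega)).smul _
lemma add (hf : Tc Q H n f) (hg : Tc Q H n g) : Tc Q H n (f + g) :=
  ⟨fun i hi => it_add i f g ▸ (hf.lo i hi).add (hg.lo i hi),
    fun i hi => it_add i f g ▸ (hf.hi i hi).add (hg.hi i hi)⟩
lemma neg (hf : Tc Q H n f) : Tc Q H n (-f) :=
  ⟨fun i hi => it_neg i f ▸ (hf.lo i hi).neg, fun i hi => it_neg i f ▸ (hf.hi i hi).neg⟩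
lemma sub (hf : Tc Q H n f) (hg : Tc Q H n g) : Tc Q H n (f - g) := by
  rw [sub_eq_add_neg]; exact hf.add hg.neg
lemma dy (hf : Tc Q H (n + 1) f) : Tc Q H n (Dy f) :=
  ⟨fun i hi => hf.lo (i + 1) (by omega), fun i hi => hf.hi (i + 1) (by omega)⟩
lemma pred (hf : Tc Q H (n + 1) f) : Tc Q H n f :=
  ⟨fun i hi => hf.lo i (by omega), fun i hi => hf.hi i (by omega)⟩
lemma ofBd (hH : ∀ d, ∀ z ∈ Q d, 1 ≤ H d z) (hQ : ∀ d, Q d ⊆ O d) (hf : Bd O n f) : Tc Q H n f :=
  ⟨fun _ hi => (hf.it_ob (by omega)).sub_set hQ, fun _ hi => ((hf.it_ob hi).sub_set hQ).mono hH⟩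
lemma ob (hn : 3 ≤ n) (hf : Tc Q H n f) : Ob Q 1 f := hf.lo 0 (by omega)

lemma mid1 (hn : 7 ≤ n) (hf : Tc Q H n f) (hg : Tc Q H n g) :
    Ob Q H (Dy^[n + 1] (f * g) - (f * Dy^[n + 1] g + Dy^[n + 1] f * g)) := by
  have : Ob Q H (∑ j ∈ range n, ((n + 1).choose (j + 1) : ℝ) •
      (Dy^[j + 1] f * Dy^[n + 1 - (j + 1)] g)) := Ob.sum fun j hj => by
    have := mem_range.mp hj
    exact (hf.prod hg (by omega) (by omega) (by omega)).smul _
  convert this using 1
  rw [it_mul, sum_range_succ, sum_range_succ']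
  simp

lemma mid2 (hn : 8 ≤ n) (hf : Tc Q H n f) (hw : Tc Q H n w) :
    Ob Q H (Dy^[n + 1] (f * Dy w) - (f * Dy^[n + 2] w + ((n : ℝ) + 1) • (Dy f * Dy^[n + 1] w) +
      Dy^[n + 1] f * Dy w)) := by
  obtain ⟨k, rfl⟩ : ∃ k, n = k + 1 := ⟨n - 1, by omega⟩
  have : Ob Q H (∑ j ∈ range k, ((k + 1 + 1).choose (j + 1 + 1) : ℝ) •
      (Dy^[j + 1 + 1] f * Dy^[k + 1 + 1 - (j + 1 + 1)] (Dy w))) := Ob.sum fun j hj => by
    have := mem_range.mp hj
    rw [← Function.iterate_succ_apply]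
    exact (hf.prod hw (by omega) (by omega) (by omega)).smul _
  convert this using 1
  rw [it_mul, sum_range_succ, sum_range_succ', sum_range_succ']
  simp only [zero_add, Nat.choose_one_right, Function.iterate_one, Nat.choose_zero_right,
    Nat.cast_one, one_smul, Function.iterate_zero, id, Nat.sub_zero, Nat.choose_self,
    Nat.sub_self, Nat.add_sub_cancel, ← Function.iterate_succ_apply]
  push_cast
  abel

lemma mid3 (hn : 7 ≤ n) (hf : Tc Q H n f) (hw : Tc Q H n w) :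
    Ob Q H (Dy^[n] (f * Dy w) - f * Dy^[n + 1] w) := by
  have : Ob Q H (∑ j ∈ range n, (n.choose (j + 1) : ℝ) •
      (Dy^[j + 1] f * Dy^[n - (j + 1)] (Dy w))) := Ob.sum fun j hj => by
    have := mem_range.mp hj
    rw [← Function.iterate_succ_apply (n := n - (j + 1))]
    exact (hf.prod hw (by omega) (by omega) (by omega)).smul _
  convert this using 1
  rw [it_mul, sum_range_succ']
  simp
end Tc

/-- Principal part of the derivative of order `n + 1`. -/
structure Tp (Q : ι → Set P) (H : ι → P → ℝ) (n : ℕ) (U V s f a b e : Fm ι) : Prop where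
  tc : Tc Q H n f
  top : Ob Q H (Dy^[n + 1] f - (a * U + b * V + e * s))

namespace Tp
lemma mul (hn : 7 ≤ n) (hf : Tp Q H n U V s f a b e) (hg : Tp Q H n U V s g a' b' e') :
    Tp Q H n U V s (f * g) (f * a' + g * a) (f * b' + g * b) (f * e' + g * e) where
  tc := hf.tc.mul (by omega) hg.tc
  top := by
    convert (hf.tc.mid1 hn hg.tc).add (((hf.tc.ob (by omega)).bmul hg.top).add
      ((hg.tc.ob (by omega)).bmul hf.top)) using 1
    ring
lemma add (hf : Tp Q H n U V s f a b e) (hg : Tp Q H n U V s g a' b' e') :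
    Tp Q H n U V s (f + g) (a + a') (b + b') (e + e') where
  tc := hf.tc.add hg.tc
  top := by
    convert hf.top.add hg.top using 1
    rw [it_add]; ring
lemma neg (hf : Tp Q H n U V s f a b e) : Tp Q H n U V s (-f) (-a) (-b) (-e) where
  tc := hf.tc.neg
  top := by
    convert hf.top.neg using 1
    rw [it_neg]; ring
lemma coef (hf : Tc Q H n f) (h : Ob Q H (Dy^[n + 1] f)) : Tp Q H n U V s f 0 0 0 :=
  ⟨hf, by simpa using h⟩
lemma ofBd (hH : ∀ d, ∀ z ∈ Q d, 1 ≤ H d z) (hQ : ∀ d, Q d ⊆ O d) (hf : Bd O (n + 1) f) :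
    Tp Q H n U V s f 0 0 0 :=
  coef (Tc.ofBd hH hQ hf.pred) ((Tc.ofBd hH hQ hf).hi _ le_rfl)
lemma mulD (hn : 8 ≤ n) (hf : Tp Q H n U V s f a b e) (hw : Tc Q H n w) :
    Ob Q H (Dy^[n + 1] (f * Dy w) - (f * Dy (Dy^[n + 1] w) +
      ((n : ℝ) + 1) • (Dy f * Dy^[n + 1] w) + (a * U + b * V + e * s) * Dy w)) := by
  convert (hf.tc.mid2 hn hw).add (hf.top.mulb (hw.lo 1 (by omega))) using 1
  rw [← it_succ, Function.iterate_one]; ring
end Tp

end Vale.Agent.P229
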