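import Vale.Agent.P229.Energy

/-! P229: the model metric coefficient on one lens and the first order system. -/

open Set MeasureTheory Filter
open scoped ContDiff Topology
noncomputable section
namespace Vale.Agent.P229
open Vale.Agent.P347

variable {ι : Type}

/-- Composition with a function of one variable. -/
def cmp (f : Sm ℝ) (g : Fm ι) : Fm ι :=
  fun d => Sm.of (fun z => f (g d z)) (f.smooth.comp (g d).smooth)

@[simp] lemma cmp_apply (f : Sm ℝ) (g : Fm ι) (d z) : cmp f g d z = f (g d z) := rfl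

lemma sm_deriv (f : Sm ℝ) (t : ℝ) : HasDerivAt f (Sm.D 1 f t) t := (f.hasF t).hasDerivAt

lemma Dv_cmp (v : P) (f : Sm ℝ) (g : Fm ι) : Dv v (cmp f g) = cmp (Sm.D 1 f) g * Dv v g := by
  ext d z
  exact congrArg (fun L : P →L[ℝ] ℝ => L v)
    ((sm_deriv f (g d z)).comp_hasFDerivAt z ((g d).hasF z)).fderiv

/-- Bump supported in `[-1, 1]`. -/
def bs : ContDiffBump (0 : ℝ) := ⟨1 / 2, 1, by norm_num, by norm_num⟩
/-- Bump equal to one on `[-1, 1]` and supported in `[-2, 2]`. -/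
def bb1 : ContDiffBump (0 : ℝ) := ⟨1, 2, by norm_num, by norm_num⟩
/-- Derivatives of the small bump. -/
def sg (a : ℕ) : Sm ℝ := (Sm.D 1)^[a] (Sm.of bs bs.contDiff)
/-- The large bump. -/
def bt : Sm ℝ := Sm.of bb1 bb1.contDiff

lemma sg_succ (a : ℕ) : Sm.D 1 (sg a) = sg (a + 1) := (Function.iterate_succ_apply' _ _ _).symm

lemma D1_zero {f : Sm ℝ} {c : ℝ} (h : ∀ t, c < |t| → f t = 0) (t : ℝ) (ht : c < |t|) :
    Sm.D 1 f t = 0 := by
  have : (f : ℝ → ℝ) =ᶠ[𝓝 t] fun _ => 0 :=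
    eventually_of_mem ((isOpen_lt continuous_const continuous_abs).mem_nhds ht) h
  rw [Sm.D_apply, this.fderiv_eq]; simp

lemma sg_zero (a : ℕ) (t : ℝ) (ht : 1 < |t|) : sg a t = 0 := by
  induction a generalizing t with
  | zero => exact bs.zero_of_le_dist (by simpa [bs] using ht.le)
  | succ a ih => rw [← sg_succ]; exact D1_zero ih t ht

lemma bdd_of {f : Sm ℝ} {c : ℝ} (h : ∀ t, c < |t| → f t = 0) : ∃ C, 0 ≤ C ∧ ∀ t, |f t| ≤ C := by
  obtain ⟨C, hC⟩ := f.cont.bounded_above_of_compact_support (HasCompactSupport.intro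
    (isCompact_Icc (a := -c) (b := c)) fun t ht => h t (by rwa [mem_Icc, ← abs_le, not_le] at ht))
  exact ⟨C, (norm_nonneg _).trans (hC 0), hC⟩

lemma bt_one {t : ℝ} (ht : |t| ≤ 1) : bt t = 1 := 
  bb1.one_of_mem_closedBall (by simpa [bb1] using ht)
lemma bt_zero (t : ℝ) (ht : 2 < |t|) : bt t = 0 := 
  bb1.zero_of_le_dist (by simpa [bb1] using ht.le)
lemma bt_nonneg (t : ℝ) : 0 ≤ bt t := bb1.nonneg
lemma bt_le (t : ℝ) : bt t ≤ 1 := bb1.le_one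

/-- Rescaled derivatives of the source. -/
def term (l : ι → ℝ) (a b : ℕ) (p : ℤ) : Fm ι :=
  cst (fun d => l d ^ p) * cmp (sg a) (cst l * cX) * cmp (sg b) (cst l * cY)

/-- The localising profile of the source. -/
def prof (l : ι → ℝ) : ι → P → ℝ := fun d z => bt (l d * z.1) * bt (l d * z.2)

variable {l : ι → ℝ} {a b : ℕ} {p : ℤ} {Q : ι → Set P}

lemma term_apply (d z) : term l a b p d z = l d ^ p * sg a (l d * z.1) * sg b (l d * z.2) := rfl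

lemma Dx_term (hl : ∀ d, 0 < l d) : Dx (term l a b p) = term l (a + 1) b (p + 1) := by
  simp only [term, Dv_mul, Dv_cmp, Dv_cst, Dx_cX, Dx_cY, sg_succ]
  ext d z
  simp only [Pi.mul_apply, Pi.add_apply, Pi.zero_apply, Pi.one_apply, Sm.mul_apply, Sm.add_apply,
    Sm.zero_apply, Sm.one_apply, cst_apply, cmp_apply, zpow_add_one₀ (hl d).ne']
  ring

lemma Dy_term (hl : ∀ d, 0 < l d) : Dy (term l a b p) = term l a (b + 1) (p + 1) := by
  simp only [term, Dv_mul, Dv_cmp, Dv_cst, Dy_cX, Dy_cY, sg_succ]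
  ext d z
  simp only [Pi.mul_apply, Pi.add_apply, Pi.zero_apply, Pi.one_apply, Sm.mul_apply, Sm.add_apply,
    Sm.zero_apply, Sm.one_apply, cst_apply, cmp_apply, zpow_add_one₀ (hl d).ne']
  ring

lemma it_term (hl : ∀ d, 0 < l d) (i : ℕ) : Dy^[i] (term l a b p) = term l a (b + i) (p + i) := by
  induction i with
  | zero => simp
  | succ i ih => rw [it_succ, ih, Dy_term hl]; congr 1; push_cast; ring

lemma prof_nonneg (d z) : 0 ≤ prof l d z := mul_nonneg (bt_nonneg _) (bt_nonneg _)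
lemma prof_le (d z) : prof l d z ≤ 1 := mul_le_one₀ (bt_le _) (bt_nonneg _) (bt_le _)

lemma term_supp {d z} (h : term l a b p d z ≠ 0) : |l d * z.1| ≤ 1 ∧ |l d * z.2| ≤ 1 := by
  rw [term_apply] at h
  exact ⟨not_lt.mp fun h1 => h (by rw [sg_zero _ _ h1]; simp),
    not_lt.mp fun h1 => h (by rw [sg_zero _ _ h1]; simp)⟩

lemma ob_term (hl : ∀ d, 0 < l d) : Ob Q (fun d z => l d ^ p * prof l d z) (term l a b p) := by
  obtain ⟨C, C0, hC⟩ := bdd_of (sg_zero a)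
  obtain ⟨C', C0', hC'⟩ := bdd_of (sg_zero b)
  refine ⟨C * C', by positivity, fun d z _ => ?_⟩
  have := hl d
  by_cases h : term l a b p d z = 0
  · rw [h, abs_zero]; have := prof_nonneg (l := l) d z; positivity
  · simp only [prof]
    rw [bt_one (term_supp h).1, bt_one (term_supp h).2, term_apply, abs_mul, abs_mul,
      abs_of_pos (zpow_pos this p)]
    calc _ ≤ l d ^ p * C * C' := by gcongr; exacts [hC _, hC' _]
      _ = _ := by ring

lemma ob_coord_term (hl : ∀ d, 0 < l d) {f : Fm ι}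
    (hf : Ob Q (fun _ z => |z.1| + |z.2|) f) :
    Ob Q (fun d z => l d ^ (p - 1) * prof l d z) (f * term l a b p) := by
  obtain ⟨C, C0, hC⟩ := hf.mul' (ob_term (a := a) (b := b) (p := p) hl)
  refine ⟨C * 2, by positivity, fun d z hz => ?_⟩
  have h1 := hl d
  have h2 := prof_nonneg (l := l) d z
  by_cases h : term l a b p d z = 0
  · simp only [Pi.mul_apply, Sm.mul_apply, h, mul_zero, abs_zero]; positivity
  · refine (hC d z hz).trans ?_
    obtain ⟨a1, a2⟩ := term_supp h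
    rw [abs_mul, abs_of_pos h1, ← le_div_iff₀' h1] at a1 a2
    simp only [zpow_sub_one₀ h1.ne']
    calc _ ≤ C * ((1 / l d + 1 / l d) * (l d ^ p * prof l d z)) := by gcongr
      _ = _ := by ring

lemma ob_term_one (hl : ∀ d, 1 ≤ l d) (hp : p ≤ 0) : Ob Q 1 (term l a b p) :=
  (ob_term fun d => one_pos.trans_le (hl d)).mono fun d z _ =>
    mul_le_one₀ (zpow_le_one_of_nonpos₀ (hl d) hp) (prof_nonneg d z) (prof_le d z)

lemma bd_term (hl : ∀ d, 1 ≤ l d) {n : ℕ} (hp : p + n ≤ 0) : Bd Q n (term l a b p) := by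
  have h0 := fun d => one_pos.trans_le (hl d)
  induction n generalizing a b p with
  | zero => exact ob_term_one hl (by simpa using hp)
  | succ n ih =>
    exact ⟨ob_term_one hl (by omega), Dx_term h0 ▸ ih (by push_cast at hp; omega),
      Dy_term h0 ▸ ih (by push_cast at hp; omega)⟩

/-- Data of a family of local solutions. -/
structure Dt (ι : Type) where
  m : ℕ
  ρ : ι → ℝ
  r : ι → ℝ
  l : ι → ℝ
  w : Fm ι
  u : Fm ι
  v : Fm ι

namespace Dt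
variable (D : Dt ι)

/-- The open box. -/
def O : ι → Set P := fun d => obox (2 * D.r d) (2 * D.ρ d)
def e1 : Fm ι := cst fun d => D.r d ^ 2
def e2 : Fm ι := cst fun d => D.r d ^ 2 / D.ρ d ^ 2
def G : Fm ι := 1 + cX - (1 / 12 : ℝ) • (cX * cX * cX * cX) +
  (1 / 2 : ℝ) • (cX * cX * (D.e1 - D.e2 * cY * cY)) + term D.l 0 0 (-D.m - 2)
def k0 : Fm ι := cX * cX + D.e2 * cY * cY - D.e1
def kt : Fm ι := D.k0 - term D.l 2 0 (-D.m)
def K : Fm ι := D.w * D.kt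
def γ : Fm ι := D.w * Dx D.G
def τ : Fm ι := D.w * D.u
def A : Fm ι := D.w * D.v
def R1 : Fm ι := D.τ * Dy D.u + D.K * D.A * Dy D.v + D.A * D.v * Dy D.K -
  D.γ * D.u * (D.K * D.v * D.v + D.u * D.u + 1)
def R2 : Fm ι := D.τ * Dy D.v - D.A * Dy D.u - D.γ * D.v * (D.K * D.v * D.v + D.u * D.u - 1)
def al1 (k : ℝ) : Fm ι := k • Dy D.τ + D.w * Dy D.u -
  D.γ * (D.K * D.v * D.v + (3 : ℝ) • (D.u * D.u) + 1)
def be0 (k : ℝ) : Fm ι := k • Dy D.A + D.w * Dy D.v - (2 : ℝ) • (D.γ * D.u * D.v)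
def be1 (k : ℝ) : Fm ι := (k + 2) • (D.A * Dy D.K) + D.K * D.be0 k
def al2 (k : ℝ) : Fm ι := D.w * Dy D.v - k • Dy D.A - (2 : ℝ) • (D.γ * D.u * D.v)
def be2 (k : ℝ) : Fm ι := k • Dy D.τ - D.w * Dy D.u -
  D.γ * ((3 : ℝ) • (D.K * D.v * D.v) + D.u * D.u - 1)
def T (k : ℝ) (f : Fm ι) : Fm ι := Dx f - D.τ * Dy f + (D.al1 k + D.be2 k - Dy D.τ) * f
def bx (k : ℝ) : Fm ι := (1 / 2 : ℝ) • (cX * D.T k (D.T k cY)) - D.T k cY
def bb (k : ℝ) : Fm ι := cY + cX * D.bx k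
def cc : Fm ι := (1 / 2 : ℝ) • (cX * D.A)

/-- Hypotheses on the coefficients. -/
structure Co : Prop where
  hm : 8 ≤ D.m
  ρ0 : ∀ d, 0 < D.ρ d
  ρ1 : ∀ d, D.ρ d ≤ 1
  r0 : ∀ d, 0 < D.r d
  r1 : ∀ d, D.r d ≤ D.ρ d ^ 2
  l0 : ∀ d, 0 < D.l d
  l1 : ∀ d, (D.l d)⁻¹ ≤ D.ρ d * D.r d ^ 2
  ow : Ob D.O 1 D.w
  iw : Zr D.O (D.w * D.G - 1)

/-- Hypotheses on the solutions. -/
structure Fam : Prop extends D.Co where
  bu : Bd D.O 8 D.u
  bv : Bd D.O 8 D.v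
  hA : ∃ c, 0 < c ∧ ∀ d, ∀ z ∈ D.O d, c ≤ D.A d z
  eu : Zr D.O (Dx D.u - D.R1)
  ev : Zr D.O (Dx D.v - D.R2)

lemma oO (d : ι) : IsOpen (D.O d) := isOpen_obox

variable {D}

namespace Co
variable (h : D.Co)
include h

lemma rρ (d) : D.r d ≤ D.ρ d := (h.r1 d).trans (by nlinarith [h.ρ0 d, h.ρ1 d])
lemma r1' (d) : D.r d ≤ 1 := (h.rρ d).trans (h.ρ1 d)
lemma l2 (d) : 1 ≤ D.l d := (inv_le_one₀ (h.l0 d)).mp ((h.l1 d).trans
  (mul_le_one₀ (h.ρ1 d) (sq_nonneg _) (pow_le_one₀ (h.r0 d).le (h.r1' d))))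
omit h in
lemma oX : Ob D.O (fun d _ => D.r d) cX := ⟨2, zero_le_two, fun _ _ hz => hz.1.le⟩
omit h in
lemma oY : Ob D.O (fun d _ => D.ρ d) cY := ⟨2, zero_le_two, fun _ _ hz => hz.2.le⟩
lemma oXρ : Ob D.O (fun d _ => D.ρ d) cX := oX.mono fun d _ _ => h.rρ d
lemma bX {n} : Bd D.O n cX := Bd.cX (oX.mono fun d _ _ => h.r1' d)
lemma bY {n} : Bd D.O n cY := Bd.cY (oY.mono fun d _ _ => h.ρ1 d)
omit h in
lemma oe1 : Ob D.O (fun d _ => D.r d ^ 2) D.e1 := Ob.of_le fun _ _ _ => (abs_sq _).le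
omit h in
lemma oe2 : Ob D.O (fun d _ => D.r d ^ 2 / D.ρ d ^ 2) D.e2 :=
  Ob.of_le fun _ _ _ => (abs_of_nonneg (by positivity)).le
lemma be1 {n} : Bd D.O n D.e1 := Bd.cst (oe1.mono fun d _ _ => pow_le_one₀ (h.r0 d).le (h.r1' d))
lemma be2 {n} : Bd D.O n D.e2 := Bd.cst (oe2.mono fun d _ _ => div_le_one_of_le₀
  (pow_le_pow_left₀ (h.r0 d).le (h.rρ d) 2) (sq_nonneg _))
lemma bG : Bd D.O (D.m + 2) D.G :=
  (((Bd.one.add h.bX).sub ((((h.bX.mul h.bX).mul h.bX).mul h.bX).smul _)).add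
    (((h.bX.mul h.bX).mul (h.be1.sub ((h.be2.mul h.bY).mul h.bY))).smul _)).add
    (bd_term h.l2 (by push_cast; omega))
lemma bw : Bd D.O (D.m + 2) D.w := h.bG.inv D.oO h.ow h.iw
lemma bk0 {n} : Bd D.O n D.k0 := ((h.bX.mul h.bX).add ((h.be2.mul h.bY).mul h.bY)).sub h.be1
lemma bkt : Bd D.O D.m D.kt := h.bk0.sub (bd_term h.l2 (by omega))
lemma bK : Bd D.O D.m D.K := (h.bw.le (by omega)).mul h.bkt
lemma bγ : Bd D.O (D.m + 1) D.γ := h.bw.pred.mul h.bG.dx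
lemma GK : Dx (Dx D.G) = -D.kt := by
  have e : -(D.m : ℤ) - 2 + 1 + 1 = -D.m := by ring
  simp only [G, kt, k0, e1, e2, map_add, map_sub, map_smul, Dv_mul, Dv_one, Dx_cX, Dx_cY, Dv_cst,
    Dx_term h.l0, map_zero, e]
  ext d z; simp; ring

lemma osm {a b : ℕ} {p : ℤ} (hp : p ≤ -1) :
    Ob D.O (fun d _ => D.ρ d * D.r d ^ 2) (term D.l a b p) :=
  (ob_term h.l0).mono fun d z _ => (mul_le_of_le_one_right (zpow_pos (h.l0 d) p).le
    (prof_le d z)).trans ((zpow_le_zpow_right₀ (h.l2 d) hp).trans (by simpa using h.l1 d))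

lemma w1 (d) : D.ρ d * D.r d ^ 2 ≤ D.r d ^ 2 := mul_le_of_le_one_left (sq_nonneg _) (h.ρ1 d)
lemma w2 (d) : D.r d ^ 2 ≤ D.ρ d := by nlinarith [h.r0 d, h.r1' d, h.rρ d]

omit h in
lemma oXX : Ob D.O (fun d _ => D.r d ^ 2) (cX * cX) := (oX.mul' oX).mono fun _ _ _ => (sq _).ge
lemma oYY : Ob D.O (fun d _ => D.r d ^ 2) (D.e2 * cY * cY) :=
  ((oe2.mul' oY).mul' oY).mono fun d _ _ => le_of_eq (by have := h.ρ0 d; field_simp)
lemma ok0 : Ob D.O (fun d _ => D.r d ^ 2) D.k0 := (oXX.add h.oYY).sub oe1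
lemma okt : Ob D.O (fun d _ => D.r d ^ 2) D.kt :=
  h.ok0.sub ((h.osm (by have := h.hm; omega)).mono fun d _ _ => h.w1 d)
lemma oK : Ob D.O (fun d _ => D.r d ^ 2) D.K := h.ow.bmul h.okt
lemma ow1 : Ob D.O (fun d _ => D.ρ d) (D.w - 1) := by
  have : Ob D.O (fun d _ => D.ρ d) (D.G - 1) := by
    have b0 := h.bX (n := 0)
    have := ((h.oXρ.sub ((((h.oXρ.mulb b0).mulb b0).mulb b0).smul (1 / 12 : ℝ))).add
      (((h.oXρ.mulb b0).mulb (Bd.sub (n := 0) h.be1 ((h.be2.mul h.bY).mul h.bY))).smul (1 / 2 : ℝ))).add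
      ((h.osm (a := 0) (b := 0) (p := -D.m - 2) (by omega)).mono fun d _ _ => (h.w1 d).trans (h.w2 d))
    convert this using 1
    rw [G]; ring
  refine (h.ow.bmul this).neg.of_eq fun d z hz => ?_
  have := h.iw d z hz
  simp at this ⊢; linarith

lemma small {f : Fm ι} (hf : Ob D.O (fun d _ => D.r d ^ 2) f) :
    Ob D.O (fun d _ => D.ρ d * D.r d ^ 2) ((D.w - 1) * f) := h.ow1.mul' hf

lemma K0 : Ob D.O (fun d _ => D.ρ d * D.r d ^ 2) (D.K - D.k0) := by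
  convert (h.small h.ok0).sub (h.ow.bmul (h.osm (a := 2) (b := 0) (p := -D.m)
    (by have := h.hm; omega))) using 1
  rw [K, kt]; ring

lemma Kx : Ob D.O (fun d _ => D.ρ d * D.r d ^ 2) (cX * Dx D.K - (2 : ℝ) • (cX * cX)) := by
  convert (((h.oXρ.mul' h.okt).mulb h.bw.dx.ob).add ((h.small oXX).smul 2)).sub
    ((h.ow.bmul (h.bX (n := 0))).bmul (h.osm (a := 2 + 1) (b := 0) (p := -D.m + 1)
    (by have := h.hm; omega))) using 1
  simp only [K, kt, k0, e1, e2, map_add, map_sub, Dv_mul, Dx_cX, Dx_cY, Dv_cst, Dx_term h.l0]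
  ext d z; simp; ring

lemma Ky : Ob D.O (fun d _ => D.ρ d * D.r d ^ 2) (cY * Dy D.K - (2 : ℝ) • (D.e2 * cY * cY)) := by
  convert (((oY.mul' h.okt).mulb h.bw.dy.ob).add ((h.small h.oYY).smul 2)).sub
    ((h.ow.bmul (h.bY (n := 0))).bmul (h.osm (a := 2) (b := 0 + 1) (p := -D.m + 1)
    (by have := h.hm; omega))) using 1
  simp only [K, kt, k0, e1, e2, map_add, map_sub, Dv_mul, Dy_cX, Dy_cY, Dv_cst, Dy_term h.l0]
  ext d z; simp; ring

lemma XKy : Ob D.O (fun d _ => D.ρ d * D.r d ^ 2) (cX * Dy D.K) := by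
  have : Ob D.O (fun d _ => D.ρ d * D.r d ^ 2) (cX * D.e2 * cY) :=
    ((oX.mul' oe2).mul' oY).mono fun d _ _ => by
      have := h.ρ0 d; have := h.r1 d
      calc _ = D.r d / D.ρ d * D.r d ^ 2 := by field_simp
        _ ≤ _ := by gcongr; rw [div_le_iff₀ ‹_›]; linarith
  convert (((h.oXρ.mul' h.okt).mulb h.bw.dy.ob).add ((h.ow.bmul this).smul 2)).sub
    ((h.ow.bmul (h.bX (n := 0))).bmul (h.osm (a := 2) (b := 0 + 1) (p := -D.m + 1)
    (by have := h.hm; omega))) using 1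
  simp only [K, kt, k0, e1, e2, map_add, map_sub, Dv_mul, Dy_cX, Dy_cY, Dv_cst, Dy_term h.l0]
  ext d z; simp; ring

end Co
end Dt

end Vale.Agent.P229
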