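import Vale.Agent.P229.Test

/-! P229: non-existence of bounded solutions of the Gauss-Codazzi system on a lens. -/

open Set MeasureTheory Filter
open scoped ContDiff Topology
noncomputable section
namespace Vale.Agent.P229
open Vale.Agent.P347

variable {ι κ : Type}

lemma Ob.res {Q : ι → Set P} {w : ι → P → ℝ} {f : Fm ι} (h : Ob Q w f) (φ : κ → ι) :
    Ob (fun d => Q (φ d)) (fun d => w (φ d)) fun d => f (φ d) := by
  obtain ⟨C, a, b⟩ := h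
  exact ⟨C, a, fun d => b (φ d)⟩

lemma Bd.res {Q : ι → Set P} {n : ℕ} {f : Fm ι} (h : Bd Q n f) (φ : κ → ι) :
    Bd (fun d => Q (φ d)) n fun d => f (φ d) := by
  induction n generalizing f with
  | zero => exact Ob.res h φ
  | succ n ih => exact ⟨h.1.res φ, ih h.dx, ih h.dy⟩

namespace Dt

/-- Subfamilies. -/
def res (D : Dt ι) (φ : κ → ι) : Dt κ :=
  ⟨D.m, fun d => D.ρ (φ d), fun d => D.r (φ d), fun d => D.l (φ d), fun d => D.w (φ d),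
    fun d => D.u (φ d), fun d => D.v (φ d)⟩

variable {D : Dt ι}

lemma Co.res (h : D.Co) (φ : κ → ι) : (D.res φ).Co :=
  ⟨h.hm, fun d => h.ρ0 (φ d), fun d => h.ρ1 (φ d), fun d => h.r0 (φ d), fun d => h.r1 (φ d),
    fun d => h.l0 (φ d), fun d => h.l1 (φ d), h.ow.res φ, fun d => h.iw (φ d)⟩

lemma Fam.res (h : D.Fam) (φ : κ → ι) : (D.res φ).Fam :=
  ⟨h.toCo.res φ, h.bu.res φ, h.bv.res φ, h.hA.imp fun _ hc => ⟨hc.1, fun d => hc.2 (φ d)⟩,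
    fun d => h.eu (φ d), fun d => h.ev (φ d)⟩

theorem Fam.core (h : D.Fam) :
    ∀ᶠ ρ in 𝓝[>] (0 : ℝ), ∀ r, ∃ l0, ∀ d, D.ρ d = ρ → D.r d = r → D.l d < l0 := by
  obtain ⟨C, C0, hC⟩ := h.K0
  choose ρ0 p0 c c0 hc using fun n : ℕ => h.pos (n + 1) (by positivity)
  have e1 : ∀ᶠ ρ in 𝓝[>] (0 : ℝ), ∀ n ∈ Finset.range (D.m + 1), ρ ≤ ρ0 n :=
    (eventually_all_finset _).mpr fun n _ => nhdsWithin_le_nhds (Iic_mem_nhds (p0 n))
  have e2 : ∀ᶠ ρ in 𝓝[>] (0 : ℝ), ρ ≤ 1 / (2 * (C + 1)) :=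
    nhdsWithin_le_nhds (Iic_mem_nhds (by positivity))
  filter_upwards [e1, e2, self_mem_nhdsWithin] with ρ a1 a2 a3 r
  by_cases hr : 0 < r
  swap
  · exact ⟨0, fun d _ h2 => absurd (h2 ▸ h.r0 d) hr⟩
  have a3 : 0 < ρ := a3
  have hO : (D.res (Subtype.val : {d // D.ρ d = ρ ∧ D.r d = r} → ι)).O =
      fun _ => obox (2 * r) (2 * ρ) := funext fun d => by simp only [O, Dt.res, d.2.1, d.2.2]
  refine (Fix.test (D := D.res (Subtype.val : {d // D.ρ d = ρ ∧ D.r d = r} → ι))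
    ⟨h.res _, a3, hr, hO, fun d => ?_, fun n hn => ⟨c n * r ^ 2, by have := c0 n; positivity,
      fun d z hz => ?_⟩⟩).imp fun l0 hl d h1 h2 => hl ⟨d, h1, h2⟩
  · have h0 : (0 : P) ∈ D.O d := (congrFun hO d).symm ▸
      (⟨by simpa using hr, by simpa using a3⟩ : (0 : P) ∈ obox (2 * r) (2 * ρ))
    have := (abs_le.mp (hC d 0 h0)).2
    simp only [k0, Dt.e1, d.2.1, d.2.2, Pi.sub_apply, Pi.add_apply, Pi.mul_apply, Sm.sub_apply,
      Sm.add_apply, Sm.mul_apply, cst_apply, cX_apply, cY_apply, Prod.fst_zero, Prod.snd_zero] at this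
    rw [le_div_iff₀ (by positivity)] at a2
    change D.K d 0 ≤ _
    nlinarith [mul_le_mul_of_nonneg_right (show C * ρ ≤ 1 / 2 by nlinarith) (sq_nonneg r)]
  · have := hc n d (d.2.1.trans_le (a1 n (Finset.mem_range_succ_iff.mpr hn))) z
      ((congrFun hO d).symm ▸ hz : z ∈ (D.res Subtype.val).O d)
    rw [d.2.1, d.2.2] at this
    exact this

end Dt

lemma alg {a b c ay bx b' cx cy w G Gx K Ky v vx vy : ℝ} (h1 : w * G = 1) (h2 : v * c = 1)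
    (h3 : vx * c + v * cx = 0) (h4 : vy * c + v * cy = 0) (h5 : K = a * c - b * b)
    (h6 : Ky = ay * c + a * cy - (b' * b + b * b')) (h7 : ay = G * bx + 2 * Gx * b)
    (h8 : b' - G * cx - Gx * c + Gx * a = 0) :
    bx * v + b * vx - (w * (b * v) * (b' * v + b * vy) + K * (w * v) * vy + w * v * v * Ky -
      w * Gx * (b * v) * (K * v * v + b * v * (b * v) + 1)) = 0 ∧
    vx - (w * (b * v) * vy - w * v * (b' * v + b * vy) -
      w * Gx * v * (K * v * v + b * v * (b * v) - 1)) = 0 := by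
  have v0 : v ≠ 0 := left_ne_zero_of_mul_eq_one h2
  have w0 : w ≠ 0 := left_ne_zero_of_mul_eq_one h1
  obtain rfl : c = v⁻¹ := (inv_eq_of_mul_eq_one_right h2).symm
  obtain rfl : G = w⁻¹ := (inv_eq_of_mul_eq_one_right h1).symm
  obtain rfl : vx = -(v * v * cx) := by field_simp at h3 ⊢; linarith
  obtain rfl : vy = -(v * v * cy) := by field_simp at h4 ⊢; linarith
  obtain rfl : b' = w⁻¹ * cx + Gx * v⁻¹ - Gx * a := by linarith
  subst h5 h6 h7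
  constructor <;> field_simp <;> ring

/-- The Gauss-Codazzi system in the orthonormal frame of `dx ^ 2 + G ^ 2 dy ^ 2`. -/
structure GC (O : Set P) (G w a b c : Sm P) : Prop where
  iw : ∀ z ∈ O, w z * G z = 1
  ga : ∀ z ∈ O, -(w z * Sm.D (1, 0) (Sm.D (1, 0) G) z) = a z * c z - b z * b z
  c1 : ∀ z ∈ O, Sm.D (0, 1) a z = G z * Sm.D (1, 0) b z + 2 * Sm.D (1, 0) G z * b z
  c2 : ∀ z ∈ O, Sm.D (0, 1) b z - G z * Sm.D (1, 0) c z - Sm.D (1, 0) G z * c z +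
    Sm.D (1, 0) G z * a z = 0

lemma exists_inv {δ : ℝ} (hδ : 0 < δ) : ∃ f : Sm ℝ, ∀ t, δ ≤ |t| → f t * t = 1 := by
  let θ : ContDiffBump (0 : ℝ) := ⟨δ / 2, δ, by positivity, by linarith⟩
  have h : ∀ t : ℝ, t ^ 2 + θ t ≠ 0 := fun t => by
    rcases eq_or_ne t 0 with rfl | h
    · rw [θ.one_of_mem_closedBall (Metric.mem_closedBall_self θ.rIn_pos.le)]; simp
    · have := θ.nonneg (x := t)
      positivity
  refine ⟨Sm.of (fun t => t / (t ^ 2 + θ t))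
    (contDiff_id.div ((contDiff_id.pow 2).add θ.contDiff) h), fun t ht => ?_⟩
  have : t ≠ 0 := abs_pos.mp (hδ.trans_le ht)
  rw [Sm.of_apply, θ.zero_of_le_dist (by simpa using ht)]
  field_simp; simp

theorem Dt.Co.core {D : Dt ι} (h : D.Co) {a b c : Fm ι} (hb : Bd D.O 8 b) (hc : Bd D.O 8 c)
    {δ : ℝ} (hδ : 0 < δ) (c0 : ∀ d, δ ≤ c d 0)
    (g : ∀ d, GC (D.O d) (D.G d) (D.w d) (a d) (b d) (c d)) :
    ∀ᶠ ρ in 𝓝[>] (0 : ℝ), ∀ r, ∃ l0, ∀ d, D.ρ d = ρ → D.r d = r → D.l d < l0 := by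
  obtain ⟨C, C0, hC⟩ := Bd.lip (hc.le (by omega : 1 ≤ 8))
  obtain ⟨C1, C1', hC1⟩ := h.ow1
  obtain ⟨C2, C2', hC2⟩ := hc.ob
  obtain ⟨f, hf⟩ := exists_inv (half_pos hδ)
  set ρ1 := min (δ / (8 * (C + 1))) (1 / (2 * (C1 + 1))) with hρ
  let φ : {d // D.ρ d ≤ ρ1} → ι := Subtype.val
  let v := cmp f fun d => c (φ d)
  let D' : Dt {d // D.ρ d ≤ ρ1} := {D.res φ with u := (fun d => b (φ d)) * v, v := v}
  have h' : D'.Co := ⟨h.hm, fun d => h.ρ0 d, fun d => h.ρ1 d, fun d => h.r0 d, fun d => h.r1 d,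
    fun d => h.l0 d, fun d => h.l1 d, h.ow.res φ, fun d => h.iw d⟩
  have p1 : ∀ d, ∀ z ∈ D'.O d, δ / 2 ≤ c (φ d) z := fun d z hz => by
    have a1 := (abs_le.mp (hC d z hz)).1
    have a2 := (le_div_iff₀ (by positivity)).mp (d.2.trans (min_le_left _ _))
    have a3 : |z.1| + |z.2| ≤ 4 * D.ρ d := by
      have : |z.1| < 2 * D.r d := hz.1
      have : |z.2| < 2 * D.ρ d := hz.2
      linarith [h.rρ d]
    simp only [Pi.sub_apply, Sm.sub_apply, cst_apply] at a1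
    nlinarith [c0 d, h.ρ0 d, mul_le_mul_of_nonneg_left a3 C0]
  have p2 : ∀ d, ∀ z ∈ D'.O d, v d z * c (φ d) z = 1 := fun d z hz =>
    hf _ ((p1 d z hz).trans (le_abs_self _))
  have p3 : ∀ d, ∀ z ∈ D'.O d, 0 < v d z := fun d z hz =>
    pos_of_mul_pos_left ((p2 d z hz).symm ▸ one_pos) ((half_pos hδ).le.trans (p1 d z hz))
  have z1 : Zr D'.O (v * (fun d => c (φ d)) - 1) := fun d z hz => sub_eq_zero.mpr (p2 d z hz)
  have bv : Bd D'.O 8 v := (hc.res φ).inv D'.oO ⟨2 / δ, by positivity, fun d z hz => by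
    rw [abs_of_pos (p3 d z hz), Pi.one_apply, Pi.one_apply, mul_one, le_div_iff₀ hδ]
    nlinarith [p1 d z hz, p2 d z hz, p3 d z hz]⟩ z1
  have z2 : Zr D'.O (D'.K - ((fun d => a (φ d)) * (fun d => c (φ d)) -
      (fun d => b (φ d)) * fun d => b (φ d))) := fun d z hz => by
    have a1 := (g d).ga z hz
    have a2 : Sm.D (1, 0) (Sm.D (1, 0) (D.G d)) z = -D.kt d z := congrArg (fun g : Fm ι => g d z) h.GK
    rw [a2, mul_neg, neg_neg] at a1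
    exact sub_eq_zero.mpr a1
  have e : ∀ d, ∀ z ∈ D'.O d, (Dx D'.u - D'.R1) d z = 0 ∧ (Dx D'.v - D'.R2) d z = 0 := fun d z hz => by
    have a3 := z1.D D'.oO (1, 0) d z hz
    have a4 := z1.D D'.oO (0, 1) d z hz
    have a6 := z2.D D'.oO (0, 1) d z hz
    have u0 : D'.u = (fun d => b (φ d)) * v := rfl
    have v0 : D'.v = v := rfl
    simp only [Dt.R1, Dt.R2, Dt.τ, Dt.A, Dt.γ, u0, v0, map_sub, Dv_mul, Dv_one, sub_zero,
      Pi.zero_apply, Pi.sub_apply, Pi.add_apply, Pi.mul_apply, Pi.one_apply, Sm.sub_apply, Sm.add_apply,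
      Sm.mul_apply, Sm.one_apply] at a3 a4 a6 ⊢
    exact alg ((g d).iw z hz) (p2 d z hz) a3 a4 (sub_eq_zero.mp (z2 d z hz)) (sub_eq_zero.mp a6)
      ((g d).c1 z hz) ((g d).c2 z hz)
  have F : D'.Fam := ⟨h', (hb.res φ).mul bv, bv, ⟨1 / (2 * (C2 + 1)), by positivity,
    fun d z hz => ?_⟩, fun d z hz => (e d z hz).1, fun d z hz => (e d z hz).2⟩
  · filter_upwards [F.core, nhdsWithin_le_nhds (Iic_mem_nhds (show 0 < ρ1 by positivity))]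
      with ρ a1 a2 r
    exact (a1 r).imp fun l0 hl d h1 h2 => hl ⟨d, h1 ▸ a2⟩ h1 h2
  · have a1 := (abs_le.mp (hC1 d z hz)).1
    have a2 := (le_div_iff₀ (by positivity)).mp (d.2.trans (min_le_right _ _))
    have a3 := (abs_le.mp (hC2 d z hz)).2
    simp only [Pi.sub_apply, Sm.sub_apply, Pi.one_apply, Sm.one_apply, mul_one] at a1 a3
    have a4 : 1 / 2 ≤ D.w d z := by nlinarith [h.ρ0 d]
    have a5 : 1 ≤ v d z * (C2 + 1) := by nlinarith [p2 d z hz, p3 d z hz]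
    rw [div_le_iff₀ (by positivity)]
    change 1 ≤ D.w d z * v d z * _
    nlinarith

/-- Explicit bounds on partial derivatives. -/
def Bn (O : Set P) (N : ℝ) : ℕ → Sm P → Prop
  | 0, f => ∀ z ∈ O, |f z| ≤ N
  | n + 1, f => (∀ z ∈ O, |f z| ≤ N) ∧ Bn O N n (Sm.D (1, 0) f) ∧ Bn O N n (Sm.D (0, 1) f)

lemma Bn.bd {O : ι → Set P} {N : ℝ} (hN : 0 ≤ N) {n : ℕ} {f : Fm ι} (h : ∀ d, Bn (O d) N n (f d)) :
    Bd O n f := by
  induction n generalizing f with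
  | zero => exact ⟨N, hN, fun d z hz => by simpa using h d z hz⟩
  | succ n ih => exact ⟨⟨N, hN, fun d z hz => by simpa using (h d).1 z hz⟩,
      ih fun d => (h d).2.1, ih fun d => (h d).2.2⟩

/-- The model coefficient. -/
def Gf (m : ℕ) (ρ r l : ℝ) : Sm P := Dt.G ⟨m, fun _ : Unit => ρ, fun _ => r, fun _ => l, 0, 0, 0⟩ ()

/-- Bounded solutions on a lens. -/
structure Sol (N : ℝ) (m : ℕ) (ρ r l : ℝ) (w a b c : Sm P) : Prop where
  g : GC (obox (2 * r) (2 * ρ)) (Gf m ρ r l) w a b c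
  hw : Bn (obox (2 * r) (2 * ρ)) N 0 w
  hb : Bn (obox (2 * r) (2 * ρ)) N 8 b
  hc : Bn (obox (2 * r) (2 * ρ)) N 8 c
  c0 : N⁻¹ ≤ c 0

theorem core {N : ℝ} (hN : 0 < N) {m : ℕ} (hm : 8 ≤ m) : ∀ᶠ ρ in 𝓝[>] (0 : ℝ), ∀ r, 0 < r →
    r ≤ ρ ^ 2 → ∀ᶠ l in atTop, ∀ w a b c, ¬Sol N m ρ r l w a b c := by
  let ι := {p : (ℝ × ℝ × ℝ) × Sm P × Sm P × Sm P × Sm P // 0 < p.1.1 ∧ p.1.1 ≤ 1 ∧ 0 < p.1.2.1 ∧
    p.1.2.1 ≤ p.1.1 ^ 2 ∧ 0 < p.1.2.2 ∧ p.1.2.2⁻¹ ≤ p.1.1 * p.1.2.1 ^ 2 ∧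
    Sol N m p.1.1 p.1.2.1 p.1.2.2 p.2.1 p.2.2.1 p.2.2.2.1 p.2.2.2.2}
  let D : Dt ι := ⟨m, fun d => d.1.1.1, fun d => d.1.1.2.1, fun d => d.1.1.2.2, fun d => d.1.2.1, 0, 0⟩
  have h : D.Co := ⟨hm, fun d => d.2.1, fun d => d.2.2.1, fun d => d.2.2.2.1, fun d => d.2.2.2.2.1,
    fun d => d.2.2.2.2.2.1, fun d => d.2.2.2.2.2.2.1,
    Bn.bd (n := 0) hN.le fun d => d.2.2.2.2.2.2.2.hw,
    fun d z hz => sub_eq_zero.mpr (d.2.2.2.2.2.2.2.g.iw z hz)⟩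
  filter_upwards [h.core (a := fun d => d.1.2.2.1) (Bn.bd hN.le fun d => d.2.2.2.2.2.2.2.hb)
    (Bn.bd hN.le fun d => d.2.2.2.2.2.2.2.hc) (inv_pos.mpr hN) (fun d => d.2.2.2.2.2.2.2.c0)
    fun d => d.2.2.2.2.2.2.2.g, nhdsWithin_le_nhds (Iic_mem_nhds one_pos), self_mem_nhdsWithin]
    with ρ a1 a2 a3 r r0 r1
  have a3 : 0 < ρ := a3
  obtain ⟨l0, hl⟩ := a1 r
  filter_upwards [eventually_ge_atTop l0, eventually_gt_atTop 0,
    tendsto_inv_atTop_zero.eventually_le_const (show 0 < ρ * r ^ 2 by positivity)]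
    with l b1 b2 b3 w a b c s
  exact (hl ⟨((ρ, r, l), w, a, b, c), a3, a2, r0, r1, b2, b3, s⟩ rfl rfl).not_ge b1

end Vale.Agent.P229
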