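import Vale.Agent.P229.Int

/-! P229: the multiplier estimate. -/

open Set MeasureTheory Filter
open scoped ContDiff Topology
noncomputable section
namespace Vale.Agent.P229
open Vale.Agent.P347

variable {ι : Type}

/-- Coefficient of the square of the first unknown. -/
def qU (b c τ A α1 α2 : Fm ι) : Fm ι :=
  (1 / 2 : ℝ) • Dy (b * A) + b * α2 - (1 / 2 : ℝ) • (Dx c - Dy (τ * c)) - c * α1
/-- Coefficient of the square of the second unknown. -/
def qV (b c τ A K β1 β2 : Fm ι) : Fm ι :=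
  b * β1 - (1 / 2 : ℝ) • Dy (b * K * A) + (1 / 2 : ℝ) • (Dx (c * K) - Dy (τ * c * K)) + c * K * β2
/-- Coefficient of the mixed term. -/
def qC (b c τ A K α1 α2 β1 β2 : Fm ι) : Fm ι :=
  Dx b - Dy (τ * b) + b * (α1 + β2) + Dy (c * K * A) - c * β1 + c * K * α2

lemma amgm {ε : ℝ} (hε : 0 < ε) (x y : ℝ) : -(ε * x ^ 2) - y ^ 2 / (4 * ε) ≤ x * y := by
  have : 0 ≤ (2 * ε * x + y) ^ 2 / (4 * ε) := by positivity
  have e : (2 * ε * x + y) ^ 2 / (4 * ε) = ε * x ^ 2 + x * y + y ^ 2 / (4 * ε) := by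
    field_simp; ring
  linarith

lemma point_ineq {c0 c1 C Λ p g1 g2 U V q P0 Q0 E lU lV m1 m2 m3 m4 : ℝ} (h0 : 0 < c0)
    (hΛ : Λ * c1 = 8 * C ^ 2 / c0 + 1) (Λ0 : 0 ≤ Λ) (hq : c0 * (U ^ 2 + V ^ 2) ≤ q)
    (hP : |P0| ≤ C * (U ^ 2 + V ^ 2)) (hQ : |Q0| ≤ C * (U ^ 2 + V ^ 2))
    (hE : (g1 ^ 2 + g2 ^ 2) * (c1 * (U ^ 2 + V ^ 2)) ≤ (g1 ^ 2 + g2 ^ 2) * E) :
    c0 / 2 * (p ^ 2 * (U ^ 2 + V ^ 2)) ≤ p ^ 2 * q + 2 * p * (g1 * P0 + g2 * Q0) +
      p ^ 2 * (lU * U + lV * V) + Λ * (g1 ^ 2 + g2 ^ 2) * E +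
      Λ * (g1 * (m1 * U + m2 * V) + g2 * (m3 * U + m4 * V)) +
      (1 / c0 * (p * p * (lU * lU + lV * lV)) +
        Λ ^ 2 / 4 * (m1 * m1 + m2 * m2 + m3 * m3 + m4 * m4)) := by
  set S := U ^ 2 + V ^ 2 with hS
  have S0 : 0 ≤ S := by positivity
  have key : ∀ g R : ℝ, |R| ≤ C * S →
      -(c0 / 8 * p ^ 2 * S) - 8 * C ^ 2 / c0 * g ^ 2 * S ≤ 2 * p * (g * R) := fun g R hR => by
    have a1 := amgm (by positivity : 0 < c0 / 8) |p| (-(2 * C * |g|))
    have a2 : -(2 * |p| * |g| * (C * S)) ≤ 2 * p * (g * R) := by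
      have := neg_abs_le (2 * p * (g * R))
      rw [abs_mul, abs_mul, abs_mul, abs_two] at this
      have := mul_le_mul_of_nonneg_left hR (by positivity : 0 ≤ 2 * |p| * |g|)
      linarith
    have a3 := mul_le_mul_of_nonneg_right a1 S0
    rw [sq_abs, neg_sq, mul_pow, mul_pow, sq_abs] at a3
    have e : 2 ^ 2 * C ^ 2 * g ^ 2 / (4 * (c0 / 8)) = 8 * C ^ 2 / c0 * g ^ 2 := by field_simp; ring
    rw [e] at a3
    linarith
  have k1 := key g1 P0 hP
  have k2 := key g2 Q0 hQ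
  have k3 := amgm (by positivity : 0 < c0 / 4) (p * U) (p * lU)
  have k4 := amgm (by positivity : 0 < c0 / 4) (p * V) (p * lV)
  rw [show 4 * (c0 / 4) = c0 by ring, div_eq_mul_one_div _ c0] at k3 k4
  have k5 := amgm one_pos (g1 * U) (Λ * m1)
  have k6 := amgm one_pos (g1 * V) (Λ * m2)
  have k7 := amgm one_pos (g2 * U) (Λ * m3)
  have k8 := amgm one_pos (g2 * V) (Λ * m4)
  have k9 := mul_le_mul_of_nonneg_left hq (sq_nonneg p)
  have k10 := mul_le_mul_of_nonneg_left hE Λ0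
  have k11 : Λ * ((g1 ^ 2 + g2 ^ 2) * (c1 * S)) = (8 * C ^ 2 / c0 + 1) * ((g1 ^ 2 + g2 ^ 2) * S) := by
    rw [← hΛ]; ring
  rw [k11] at k10
  rw [hS] at *
  linarith

theorem energy {a b a' b' a'' b'' c0 : ℝ} (ha : 0 < a) (h1 : a < a') (h1' : a' < a'') (hb : 0 < b)
    (h2 : b < b') (h2' : b' < b'') {U' V' U V τ A K α1 α2 β1 β2 R1 R2 l1 l2 bb c : Fm ι}
    {H : ι → P → ℝ} (hU : Dy U' = U) (hV : Dy V' = V)
    (e1 : Zr (fun _ => obox a'' b'') (Dx U - (τ * Dy U + K * A * Dy V + α1 * U + β1 * V + R1)))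
    (e2 : Zr (fun _ => obox a'' b'') (Dx V - (τ * Dy V - A * Dy U + α2 * U + β2 * V + R2)))
    (e3 : Zr (fun _ => obox a'' b'') (Dx U' - (τ * U + K * A * V + l1)))
    (e4 : Zr (fun _ => obox a'' b'') (Dx V' - (τ * V - A * U + l2))) (h0 : 0 < c0)
    (hq : ∀ d, ∀ z ∈ obox a'' b'', ∀ x y : ℝ, c0 * (x ^ 2 + y ^ 2) ≤ qU bb c τ A α1 α2 d z * x ^ 2 +
      qV bb c τ A K β1 β2 d z * y ^ 2 + qC bb c τ A K α1 α2 β1 β2 d z * (x * y))
    (hA : ∀ d, ∀ z ∈ obox a'' b'', c0 ≤ A d z)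
    (hK : ∀ d, ∀ z ∈ obox a'' b'', z ∉ obox a b → c0 ≤ K d z)
    (bτ : Ob (fun _ => box a' b') 1 τ) (bA : Ob (fun _ => box a' b') 1 A)
    (bK : Ob (fun _ => box a' b') 1 K) (bb' : Ob (fun _ => box a' b') 1 bb)
    (bc : Ob (fun _ => box a' b') 1 c) (hH : L2 (box a' b') H)
    (r1 : Ob (fun _ => box a' b') H (bb * R1)) (r2 : Ob (fun _ => box a' b') H (bb * R2))
    (r3 : Ob (fun _ => box a' b') H (c * R1)) (r4 : Ob (fun _ => box a' b') H (c * R2))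
    (r5 : Ob (fun _ => box a' b') H l1) (r6 : Ob (fun _ => box a' b') H l2)
    (r7 : Ob (fun _ => box a' b') H U') :
    ∃ C, ∀ d, ∫ z in box a b, (U d z ^ 2 + V d z ^ 2) ≤ C := by
  obtain ⟨φ0, p1, p2⟩ := exists_cut ha h1 hb h2
  set φ : Fm ι := fun _ => φ0 with hφ
  have B : Bd _ 2 φ := Bd.fixed (ι := ι) φ0 (isCompact_box (a := a') (b := b')) 2
  set P0 := bb * (U * V) - (1 / 2 : ℝ) • (c * (U * U) - c * K * (V * V)) with hP0
  set Q0 := -(τ * bb * (U * V)) - (1 / 2 : ℝ) • (bb * K * A * (V * V)) +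
    (1 / 2 : ℝ) • (bb * A * (U * U)) + (1 / 2 : ℝ) • (τ * c * (U * U) - τ * c * K * (V * V)) +
    c * K * A * (U * V) with hQ0
  have s0 : ∀ {f : Fm ι}, (∀ d z, |f d z| ≤ U d z ^ 2 + V d z ^ 2) →
      Ob (fun _ => box a' b') (fun d z => U d z ^ 2 + V d z ^ 2) f := fun h =>
    ⟨1, zero_le_one, fun d z _ => by simpa using h d z⟩
  have s1 := s0 (f := U * U) fun d z => by
    simp only [Pi.mul_apply, Sm.mul_apply, abs_mul_self]; nlinarith [sq_nonneg (V d z)]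
  have s2 := s0 (f := V * V) fun d z => by
    simp only [Pi.mul_apply, Sm.mul_apply, abs_mul_self]; nlinarith [sq_nonneg (U d z)]
  have s3 := s0 (f := U * V) fun d z => by
    simp only [Pi.mul_apply, Sm.mul_apply]
    exact abs_le.mpr ⟨by nlinarith [sq_nonneg (U d z + V d z)], by nlinarith [sq_nonneg (U d z - V d z)]⟩
  obtain ⟨C1, c1, hC1⟩ : Ob _ _ P0 := (bb'.bmul s3).sub (((bc.bmul s1).sub ((bc.bmul bK).bmul s2)).smul _)
  obtain ⟨C2, c2, hC2⟩ : Ob _ _ Q0 := ((((((bτ.bmul bb').bmul s3).neg.sub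
    ((((bb'.bmul bK).bmul bA).bmul s2).smul _)).add (((bb'.bmul bA).bmul s1).smul _)).add
    ((((bτ.bmul bc).bmul s1).sub (((bτ.bmul bc).bmul bK).bmul s2)).smul _)).add
    (((bc.bmul bK).bmul bA).bmul s3))
  set c1 := c0 * min 1 c0 with hc1
  have c10 : 0 < c1 := by positivity
  set Λ := (8 * (C1 + C2) ^ 2 / c0 + 1) / c1 with hΛ
  set aa := Λ • (Dx φ * Dx φ + Dy φ * Dy φ) with haa
  set lU := bb * R2 - c * R1 with hlU
  set lV := bb * R1 + K * (c * R2) with hlV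
  set m1 := -(Dx φ * l2) + (2 : ℝ) • (Dy (Dx φ) * A * U') with hm1
  set m2 := Dx φ * l1 + (2 : ℝ) • ((Dx (Dx φ) - Dy (Dx φ) * τ) * U') with hm2
  set m3 := -(Dy φ * l2) + (2 : ℝ) • (Dy (Dy φ) * A * U') with hm3
  set m4 := Dy φ * l1 + (2 : ℝ) • ((Dx (Dy φ) - Dy (Dy φ) * τ) * U') with hm4
  set J := (1 / c0) • (φ * φ * (lU * lU + lV * lV)) +
    (Λ ^ 2 / 4) • (m1 * m1 + m2 * m2 + m3 * m3 + m4 * m4) +
    (2 * Λ) • ((Dx φ * Dy (Dx φ) + Dy φ * Dy (Dy φ)) * (U' * l2)) with hJ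
  obtain ⟨C3, c3, hC3⟩ : Ob (fun _ => box a' b') (fun d z => H d z * H d z) J := by
    have t1 : Ob _ H lU := r2.sub r3
    have t2 : Ob _ H lV := r1.add (bK.bmul r4)
    have t3 : Ob _ H m1 := (B.dx.ob.bmul r6).neg.add (((B.dx.dy.ob.bmul bA).bmul r7).smul _)
    have t4 : Ob _ H m2 := (B.dx.ob.bmul r5).add (((B.dx.dx.ob.sub (B.dx.dy.ob.bmul bτ)).bmul r7).smul _)
    have t5 : Ob _ H m3 := (B.dy.ob.bmul r6).neg.add (((B.dy.dy.ob.bmul bA).bmul r7).smul _)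
    have t6 : Ob _ H m4 := (B.dy.ob.bmul r5).add (((B.dy.dx.ob.sub (B.dy.dy.ob.bmul bτ)).bmul r7).smul _)
    exact ((((B.ob.bmul B.ob).bmul ((t1.mul' t1).add (t2.mul' t2))).smul _).add
      (((((t3.mul' t3).add (t4.mul' t4)).add (t5.mul' t5)).add (t6.mul' t6)).smul _)).add
      ((((B.dx.ob.bmul B.dx.dy.ob).add (B.dy.ob.bmul B.dy.dy.ob)).bmul (r7.mul' r6)).smul _)
  obtain ⟨C4, hC4⟩ := hH.bd
  set Pf := φ * φ * P0 + aa * U' * V with hPf
  set Qf := φ * φ * Q0 - aa * U' * Dx V' with hQf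
  have hVx : Dy (Dx V') = Dx V := by rw [Dv_comm, hV]
  have pt : ∀ d, ∀ z ∈ box a' b', c0 / 2 * (φ0 z ^ 2 * (U d z ^ 2 + V d z ^ 2)) ≤
      (Dx Pf d z + Dy Qf d z) + C3 * H d z ^ 2 := by
    intro d z hz
    have hz' := box_obox h1' h2' hz
    have hE : (Dx φ d z ^ 2 + Dy φ d z ^ 2) * (c1 * (U d z ^ 2 + V d z ^ 2)) ≤
        (Dx φ d z ^ 2 + Dy φ d z ^ 2) * (A d z * (U d z ^ 2 + K d z * V d z ^ 2)) := by
      by_cases hin : z ∈ obox a b
      · have := fun v => D_zero (f := φ0 - 1) isOpen_obox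
          (fun w hw => by simp [p1 w (obox_box hw)]) v z hin
        simp only [map_sub, Derivation.map_one_eq_zero, sub_zero] at this
        simp [Dv_apply, hφ, this]
      · refine mul_le_mul_of_nonneg_left ?_ (by positivity)
        rw [hc1, mul_assoc]
        refine mul_le_mul (hA d z hz') ?_ (by positivity) (h0.le.trans (hA d z hz'))
        rw [mul_add]
        exact add_le_add (mul_le_of_le_one_left (sq_nonneg _) (min_le_left _ _))
          (mul_le_mul_of_nonneg_right ((min_le_right _ _).trans (hK d z hz' hin)) (sq_nonneg _))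
    have S0 : 0 ≤ U d z ^ 2 + V d z ^ 2 := by positivity
    have := point_ineq (p := φ0 z) (lU := lU d z) (lV := lV d z) (m1 := m1 d z) (m2 := m2 d z)
      (m3 := m3 d z) (m4 := m4 d z) (C := C1 + C2) h0 (div_mul_cancel₀ _ c10.ne') (by positivity)
      (hq d z hz' (U d z) (V d z)) ((hC1 d z hz).trans (by gcongr; linarith))
      ((hC2 d z hz).trans (by gcongr; linarith)) hE
    refine this.trans (le_trans (le_of_eq ?_) (add_le_add_right
      ((le_abs_self _).trans ((hC3 d z hz).trans_eq (by rw [sq]))) _))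
    have f1 := e1 d z hz'
    have f2 := e2 d z hz'
    have f3 := e3 d z hz'
    have f4 := e4 d z hz'
    have e0 : φ0 z = φ d z := rfl
    simp only [hPf, hQf, hP0, hQ0, hJ, haa, hlU, hlV, hm1, hm2, hm3, hm4, qU, qV, qC, map_add,
      map_sub, map_neg, map_smul, Dv_mul, hU, hVx, Pi.sub_apply, Pi.add_apply, Pi.mul_apply,
      Pi.neg_apply, Pi.smul_apply, Sm.sub_apply, Sm.add_apply, Sm.mul_apply, Sm.neg_apply,
      Sm.smul_apply, e0, ← hΛ] at f1 f2 f3 f4 ⊢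
    rw [sub_eq_zero] at f1 f2 f3 f4
    rw [f1, f2, f3, f4]
    ring
  refine ⟨2 / c0 * (C3 * C4), fun d => ?_⟩
  have z1 : ∀ v, ∀ z ∉ box a' b', Dv v φ d z = 0 := fun v =>
    D_zero isClosed_box.isOpen_compl p2 v
  have z2 : ∀ z ∉ box a' b', Pf d z = 0 := fun z hz => by
    simp [hPf, haa, z1 _ z hz, show φ d z = 0 from p2 z hz]
  have z3 : ∀ z ∉ box a' b', Qf d z = 0 := fun z hz => by
    simp [hQf, haa, z1 _ z hz, show φ d z = 0 from p2 z hz]
  have i0 := int_div (HasCompactSupport.intro isCompact_box z2)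
    (HasCompactSupport.intro isCompact_box z3)
  rw [← setIntegral_eq_integral_of_forall_compl_eq_zero (s := box a' b') fun z hz => by
    rw [D_zero isClosed_box.isOpen_compl z2 _ z hz, D_zero isClosed_box.isOpen_compl z3 _ z hz,
      add_zero]] at i0
  have cS : Continuous fun z => φ0 z ^ 2 * (U d z ^ 2 + V d z ^ 2) :=
    (φ0.cont.pow 2).mul (((U d).cont.pow 2).add ((V d).cont.pow 2))
  have cD : Continuous fun z => Dx Pf d z + Dy Qf d z := (Sm.cont _).add (Sm.cont _)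
  have cH : Continuous fun z => C3 * H d z ^ 2 := continuous_const.mul ((hH.cont d).pow 2)
  have i1 := setIntegral_mono_on (intOn (continuous_const.mul cS)) (intOn (cD.add cH)) meas_box
    (pt d)
  simp only [Pi.mul_apply, Pi.add_apply] at i1
  rw [integral_const_mul, integral_add (intOn cD) (intOn cH), integral_const_mul] at i1
  have i2 : ∫ z in box a b, (U d z ^ 2 + V d z ^ 2) ≤
      ∫ z in box a' b', φ0 z ^ 2 * (U d z ^ 2 + V d z ^ 2) := by
    refine le_trans (le_of_eq (setIntegral_congr_fun meas_box fun z hz => ?_))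
      (setIntegral_mono_set (intOn cS) (Eventually.of_forall fun z => by positivity)
        (box_mono h1.le h2.le).eventuallyLE)
    simp [p1 z hz]
  have i3 := mul_le_mul_of_nonneg_left (hC4 d) c3
  rw [div_mul_eq_mul_div, le_div_iff₀ h0]
  have i4 : ∫ z in box a' b', (Dx Pf d z + Dy Qf d z) = 0 := i0
  nlinarith

end Vale.Agent.P229
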