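import Vale.Agent.P229.Metric

/-! P229: the smooth metric without local smooth isometric immersion. -/

open Set MeasureTheory Filter
open scoped ContDiff Topology
noncomputable section
namespace Vale.Agent.P229
open Vale.Agent.P347

lemma globalize {U : Set P} (hU : IsOpen U) (h0 : (0 : P) ∈ U) {F : P → Fin 3 → ℝ}
    (hF : ∀ i, ContDiffOn ℝ ∞ (fun z => F z i) U) :
    ∃ (f : Fm (Fin 3)) (O : Set P), IsOpen O ∧ (0 : P) ∈ O ∧ O ⊆ U ∧ ∀ i, ∀ z ∈ O, f i z = F z i := by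
  obtain ⟨δ, δ0, hδ⟩ := Metric.nhds_basis_closedBall.mem_iff.mp (hU.mem_nhds h0)
  let φ : ContDiffBump (0 : P) := ⟨δ / 2, δ, half_pos δ0, half_lt_self δ0⟩
  have s : ∀ i, ContDiff ℝ ∞ fun z => φ z * F z i := fun i => contDiff_iff_contDiffAt.mpr fun x => by
    by_cases hx : x ∈ U
    · exact φ.contDiff.contDiffAt.mul ((hF i).contDiffAt (hU.mem_nhds hx))
    · have : φ =ᶠ[𝓝 x] 0 := notMem_tsupport_iff_eventuallyEq.mp fun h => hx (hδ (φ.tsupport_eq ▸ h))
      refine (contDiffAt_const (c := (0 : ℝ))).congr_of_eventuallyEq ?_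
      filter_upwards [this] with y hy
      simp [hy]
  exact ⟨fun i => Sm.of _ (s i), Metric.ball 0 (δ / 2), Metric.isOpen_ball,
    Metric.mem_ball_self (half_pos δ0), (Metric.ball_subset_closedBall.trans
    (Metric.closedBall_subset_closedBall (half_le_self δ0.le))).trans hδ, fun i z hz => by
      rw [Sm.of_apply, φ.one_of_mem_closedBall (Metric.ball_subset_closedBall hz), one_mul]⟩

theorem final : ∃ (Ω : Set (EuclideanSpace ℝ (Fin 2)))
    (g : EuclideanSpace ℝ (Fin 2) → Matrix (Fin 2) (Fin 2) ℝ),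
    IsOpen Ω ∧ 0 ∈ Ω ∧ (∀ i j, ContDiffOn ℝ ∞ (fun x => g x i j) Ω) ∧ (∀ x ∈ Ω, (g x).PosDef) ∧
    ∀ U : Set (EuclideanSpace ℝ (Fin 2)), IsOpen U → 0 ∈ U → U ⊆ Ω →
      ¬∃ F : EuclideanSpace ℝ (Fin 2) → EuclideanSpace ℝ (Fin 3), ContDiffOn ℝ ∞ F U ∧
        ∀ x ∈ U, ∀ i j, inner ℝ (fderiv ℝ F x (EuclideanSpace.single i 1))
          (fderiv ℝ F x (EuclideanSpace.single j 1)) = g x i j := by
  obtain ⟨G, G0, hG⟩ := main
  have s : ContDiff ℝ ∞ fun x : EuclideanSpace ℝ (Fin 2) => G (x 0, x 1) :=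
    G.smooth.comp (by fun_prop)
  refine ⟨{x | 0 < G (x 0, x 1)}, fun x => Matrix.diagonal ![1, G (x 0, x 1) ^ 2],
    isOpen_lt continuous_const s.continuous, by simp [← Prod.zero_eq_mk, G0],
    fun i j => ?_, fun x hx => Matrix.PosDef.diagonal fun i => ?_, fun U hU U0 _ ⟨F, hF, h⟩ => ?_⟩
  · fin_cases i <;> fin_cases j <;> simp only [Matrix.diagonal_apply] <;> simp [contDiffOn_const]
    exact (s.pow 2).contDiffOn
  · fin_cases i
    · exact one_pos
    · exact pow_pos hx 2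
  let e : P →L[ℝ] EuclideanSpace ℝ (Fin 2) :=
    (ContinuousLinearMap.fst ℝ ℝ ℝ).smulRight (EuclideanSpace.single 0 1) +
      (ContinuousLinearMap.snd ℝ ℝ ℝ).smulRight (EuclideanSpace.single 1 1)
  have e0 : e (1, 0) = EuclideanSpace.single 0 1 := by simp [e]
  have e1 : e (0, 1) = EuclideanSpace.single 1 1 := by simp [e]
  have e2 : ∀ z, (e z 0, e z 1) = z := fun z => by simp [e]
  obtain ⟨f, O, o1, o2, o3, o4⟩ := globalize (hU.preimage e.continuous) (by simpa using U0)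
    (F := fun z i => F (e z) i) fun i => (EuclideanSpace.proj (𝕜 := ℝ) i).contDiff.comp_contDiffOn
      (hF.comp e.contDiff.contDiffOn fun _ hz => hz)
  have d : ∀ v i, ∀ z ∈ O, Dv v f i z = fderiv ℝ F (e z) (e v) i := fun v i z hz => by
    have a1 : (f i : P → ℝ) =ᶠ[𝓝 z] fun z => F (e z) i := eventually_of_mem (o1.mem_nhds hz) (o4 i)
    have a2 := ((hF.contDiffAt (hU.mem_nhds (o3 hz))).differentiableAt (by simp)).hasFDerivAt
    have a3 := (EuclideanSpace.proj (𝕜 := ℝ) i).hasFDerivAt.comp z (a2.comp z e.hasFDerivAt)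
    rw [Dv_apply, Sm.D_apply, a1.fderiv_eq]
    exact congrArg (fun L : P →L[ℝ] ℝ => L v) a3.fderiv
  have i : ∀ u v, ∀ z ∈ O, ip (Dv u f) (Dv v f) z =
      inner ℝ (fderiv ℝ F (e z) (e u)) (fderiv ℝ F (e z) (e v)) := fun u v z hz => by
    simp only [ip, Sm.add_apply, Sm.mul_apply, d _ _ z hz, PiLp.inner_apply, Fin.sum_univ_three]
    simp [mul_comm]
  obtain ⟨w, hw⟩ := exists_inv (half_pos one_pos)
  have o5 : IsOpen (O ∩ {z | 1 / 2 < G z}) := o1.inter (isOpen_lt continuous_const G.cont)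
  obtain ⟨a, b, c, g⟩ := exists_GC o5 (F := f) (G := G) (w := cmp w (fun _ => G) ())
    (fun z hz => by rw [i _ _ z hz.1, e0, h _ (o3 hz.1)]; simp)
    (fun z hz => by rw [i _ _ z hz.1, e0, e1, h _ (o3 hz.1)]; simp)
    (fun z hz => by rw [i _ _ z hz.1, e1, h _ (o3 hz.1)]; simp [e2])
    fun z hz => hw _ ((le_of_lt hz.2).trans (le_abs_self _))
  exact hG _ (o5.mem_nhds ⟨o2, by simpa [G0] using two_inv_lt_one⟩) _ _ _ _ g

end Vale.Agent.P229
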