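import Vale.Agent.P229.Core

/-! P229: the Gauss-Codazzi system of an isometric immersion and its jets at the origin. -/

open Set MeasureTheory Filter
open scoped ContDiff Topology
noncomputable section
namespace Vale.Agent.P229
open Vale.Agent.P347

/-- Inner product of vector valued functions. -/
def ip (p q : Fm (Fin 3)) : Sm P := p 0 * q 0 + p 1 * q 1 + p 2 * q 2

lemma D_ip (v : P) (p q : Fm (Fin 3)) : Sm.D v (ip p q) = ip (Dv v p) q + ip p (Dv v q) := by
  simp only [ip, map_add, Sm.D_mul, Dv_apply]; ring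

lemma ip_comm (p q : Fm (Fin 3)) : ip p q = ip q p := by simp only [ip]; ring

lemma exists_normal (p q : Fm (Fin 3)) : ∃ n : Fm (Fin 3), ip p n = 0 ∧ ip q n = 0 ∧
    ip n n = ip p p * ip q q - ip p q * ip p q ∧ ∀ u v, ip u n * ip v n =
      ip u v * (ip p p * ip q q - ip p q * ip p q) - ip u p * (ip v p * ip q q - ip v q * ip p q) +
      ip u q * (ip v p * ip p q - ip v q * ip p p) := by
  refine ⟨![p 1 * q 2 - p 2 * q 1, p 2 * q 0 - p 0 * q 2, p 0 * q 1 - p 1 * q 0], ?_, ?_, ?_,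
    fun u v => ?_⟩ <;> simp only [ip, Matrix.cons_val_zero, Matrix.cons_val_one, Matrix.cons_val] <;>
    ring

lemma D_eq {f g : Sm P} {O : Set P} (hO : IsOpen O) (h : ∀ z ∈ O, f z = g z) (v : P) :
    ∀ z ∈ O, Sm.D v f z = Sm.D v g z := fun z hz => by
  have := D_zero (f := f - g) hO (fun z hz => sub_eq_zero.mpr (h z hz)) v z hz
  rwa [map_sub, Sm.sub_apply, sub_eq_zero] at this

theorem exists_GC {O : Set P} (hO : IsOpen O) {F : Fm (Fin 3)} {G w : Sm P}
    (h11 : ∀ z ∈ O, ip (Dx F) (Dx F) z = 1) (h12 : ∀ z ∈ O, ip (Dx F) (Dy F) z = 0)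
    (h22 : ∀ z ∈ O, ip (Dy F) (Dy F) z = G z ^ 2) (hw : ∀ z ∈ O, w z * G z = 1) :
    ∃ a b c, GC O G w a b c := by
  set p := Dx F with hp
  set q := (fun _ => w) * Dy F with hq
  have o12 : ∀ z ∈ O, ip p q z = 0 := fun z hz => by
    have := h12 z hz
    simp only [hq, ip, Pi.mul_apply, Sm.add_apply, Sm.mul_apply] at this ⊢
    linear_combination w z * this
  have o22 : ∀ z ∈ O, ip q q z = 1 := fun z hz => by
    have := h22 z hz
    simp only [hq, ip, Pi.mul_apply, Sm.add_apply, Sm.mul_apply] at this ⊢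
    linear_combination w z ^ 2 * this + (w z * G z + 1) * hw z hz
  have y1 : ∀ u, ∀ z ∈ O, ip (Dy p) u z = Sm.D (1, 0) G z * ip q u z + G z * ip (Dx q) u z :=
    fun u z hz => by
      have := fun i => D_eq (f := Dy F i) (g := G * q i) hO (fun z hz => by
        simp only [hq, Pi.mul_apply, Sm.mul_apply]
        linear_combination -Dy F i z * hw z hz) (1, 0) z hz
      simp only [← Dv_apply, Dv_comm (1, 0) (0, 1) F, ← hp, Sm.D_mul, Sm.add_apply,
        Sm.mul_apply] at this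
      simp only [ip, Sm.add_apply, Sm.mul_apply, this]
      ring
  clear_value p q
  obtain ⟨n, n1, n2, nn, gr⟩ := exists_normal p q
  have gram : ∀ u v, ∀ z ∈ O, ip u v z = ip u p z * ip v p z + ip u q z * ip v q z +
      ip u n z * ip v n z := fun u v z hz => by
    have := congrArg (fun f : Sm P => f z) (gr u v)
    simp only [Sm.add_apply, Sm.mul_apply, Sm.sub_apply, h11 z hz, o12 z hz, o22 z hz] at this
    linarith
  have dd : ∀ {s t : Fm (Fin 3)} {k : ℝ}, (∀ z ∈ O, ip s t z = k) → ∀ v, ∀ z ∈ O,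
      ip (Dv v s) t z + ip (Dv v t) s z = 0 := fun {s t k} h v z hz => by
    have := D_eq (g := algebraMap ℝ _ k) hO h v z hz
    rwa [D_ip, Derivation.map_algebraMap, ip_comm s] at this
  have d11 := fun v z hz => add_self_eq_zero.mp (dd h11 v z hz)
  have d22 := fun v z hz => add_self_eq_zero.mp (dd o22 v z hz)
  have dnn := fun v z hz => add_self_eq_zero.mp (dd (s := n) (t := n) (k := 1) (fun z hz => by
    simp [nn, h11 z hz, o12 z hz, o22 z hz]) v z hz)
  have d12 := dd o12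
  have dn1 := dd (k := 0) fun z _ => congrArg (fun f : Sm P => f z) n1
  have dn2 := dd (k := 0) fun z _ => congrArg (fun f : Sm P => f z) n2
  have x21 : ∀ z ∈ O, ip (Dx q) p z = 0 := fun z hz => by
    have := y1 p z hz
    rw [d11 _ z hz, ip_comm q, o12 z hz] at this
    linear_combination -w z * this - ip (Dx q) p z * hw z hz
  have x12 : ∀ z ∈ O, ip (Dx p) q z = (0 : Sm P) z := fun z hz => by
    simpa [x21 z hz] using d12 (1, 0) z hz
  have y12 : ∀ z ∈ O, ip (Dy p) q z = Sm.D (1, 0) G z := fun z hz => by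
    rw [y1 q z hz, o22 z hz, d22 _ z hz]; ring
  have yb : ∀ z ∈ O, ip (Dy p) n z = (G * ip (Dx q) n) z := fun z hz => by
    rw [y1 n z hz, n2]; simp
  have yc : ∀ z ∈ O, ip (Dy q) n z = (G * (w * ip (Dy q) n)) z := fun z hz => by
    simp only [Sm.mul_apply]; linear_combination -ip (Dy q) n z * hw z hz
  refine ⟨ip (Dx p) n, ip (Dx q) n, w * ip (Dy q) n, hw, fun z hz => ?_, fun z hz => ?_,
    fun z hz => ?_⟩
  · have a1 := D_eq hO x12 (0, 1) z hz
    have a2 := D_eq hO y12 (1, 0) z hz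
    rw [D_ip, Dv_comm] at a1
    rw [D_ip] at a2
    have a3 := gram (Dx p) (Dy q) z hz
    have a4 := gram (Dy p) (Dx q) z hz
    rw [d11 _ z hz, x12 z hz] at a3
    rw [d11 _ z hz, d22 _ z hz, yb z hz] at a4
    simp only [map_zero, Sm.add_apply, Sm.mul_apply, Sm.zero_apply] at a1 a2 a3 a4 ⊢
    linear_combination w z * (a2 - a1 + a3 - a4) - ip (Dx q) n z ^ 2 * hw z hz
  · have a2 := D_eq hO yb (1, 0) z hz
    rw [D_ip, Dv_comm, Sm.D_mul] at a2
    have a3 := gram (Dx p) (Dy n) z hz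
    have a4 := gram (Dy p) (Dx n) z hz
    have a5 := dn2 (1, 0) z hz
    rw [d11 _ z hz, x12 z hz, dnn _ z hz] at a3
    rw [d11 _ z hz, dnn _ z hz, y12 z hz] at a4
    rw [D_ip]
    simp only [Sm.add_apply, Sm.mul_apply, Sm.zero_apply] at a2 a3 a4 ⊢
    linear_combination a2 + a3 - a4 - Sm.D (1, 0) G z * a5
  · have a2 := D_eq hO yc (1, 0) z hz
    rw [D_ip, Sm.D_mul _ G] at a2
    have a3 := gram (Dx q) (Dy n) z hz
    have a4 := gram (Dy q) (Dx n) z hz
    have a5 := dn1 (1, 0) z hz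
    have a6 := d12 (0, 1) z hz
    rw [d22 _ z hz, x21 z hz, dnn _ z hz] at a3
    rw [d22 _ z hz, dnn _ z hz] at a4
    rw [y12 z hz] at a6
    rw [D_ip (0, 1), Dv_comm]
    simp only [Sm.add_apply, Sm.mul_apply] at a2 a3 a4 ⊢
    linear_combination a2 + a3 - a4 - ip (Dx n) p z * a6 + Sm.D (1, 0) G z * a5

lemma GC.neg {O : Set P} {G w a b c : Sm P} (g : GC O G w a b c) : GC O G w (-a) (-b) (-c) :=
  ⟨g.iw, fun z hz => by simpa using g.ga z hz, fun z hz => by
    simp only [map_neg, Sm.neg_apply]; linear_combination -g.c1 z hz, fun z hz => by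
    simp only [map_neg, Sm.neg_apply]; linear_combination -g.c2 z hz⟩

lemma at_zero {O : Set P} (hO : O ∈ 𝓝 (0 : P)) {f g : Sm P}
    (h : ∀ z ∈ interior O ∩ {z | z.2 < 0}, f z = g z) : f 0 = g 0 := by
  have t : Tendsto (fun y : ℝ => ((0, y) : P)) (𝓝[<] 0) (𝓝 0) :=
    tendsto_nhdsWithin_of_tendsto_nhds ((Continuous.prodMk_right (0 : ℝ)).tendsto' 0 0 rfl)
  refine tendsto_nhds_unique_of_eventuallyEq ((f.cont.tendsto 0).comp t)
    ((g.cont.tendsto 0).comp t) ?_
  filter_upwards [t (interior_mem_nhds.mpr hO), self_mem_nhdsWithin] with y h1 h2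
  exact h _ ⟨h1, h2⟩

/-- First coordinate. -/
def sX : Sm P := cX ()
/-- Second coordinate. -/
def sY : Sm P := cY ()
@[simp] lemma sX_apply (z) : sX z = z.1 := rfl
@[simp] lemma sY_apply (z) : sY z = z.2 := rfl
@[simp] lemma Dx_sX : Sm.D (1, 0) sX = 1 := congrFun Dx_cX ()
@[simp] lemma Dy_sX : Sm.D (0, 1) sX = 0 := congrFun Dy_cX ()
@[simp] lemma Dy_sY : Sm.D (0, 1) sY = 1 := congrFun Dy_cY ()

lemma lower {c : Sm P} (h : 0 < c 0 ∨ c 0 = 0 ∧ Sm.D (0, 1) c 0 = 0 ∧
    0 < Sm.D (0, 1) (Sm.D (0, 1) c) 0) : ∀ᶠ y in 𝓝 (0 : ℝ), y ^ 3 ≤ c (0, y) := by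
  set f := c - sY * sY * sY with hf
  have e : ∀ g : Sm P, deriv (fun s : ℝ => g (0 + s • (0, 1))) =
      fun s : ℝ => Sm.D (0, 1) g (0 + s • (0, 1)) := fun g => funext fun s => (line_deriv g 0 _ s).deriv
  have hc := (line_deriv f 0 (0, 1) 0).continuousAt
  have : ∀ᶠ y in 𝓝 (0 : ℝ), 0 ≤ f (0 + y • (0, 1)) := by
    rcases h with h | ⟨h1, h2, h3⟩
    · exact hc.eventually_const_le (by simpa [hf] using h)
    · have := isLocalMin_of_deriv_deriv_pos (by rw [e, e]; simpa [hf, Sm.D_mul] using h3)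
        (by rw [e]; simpa [hf, Sm.D_mul] using h2) hc
      filter_upwards [this] with y hy
      simpa [hf, h1] using hy
  filter_upwards [this] with y hy
  simp [hf] at hy
  linarith

theorem jets {O : Set P} (hO : O ∈ 𝓝 (0 : P)) {G w a b c : Sm P} (g : GC O G w a b c)
    (hG : ∀ z : P, z.2 < 0 → G z = (1 + sX - (1 / 12 : ℝ) • (sX * sX * sX * sX)) z) :
    (∀ᶠ y in 𝓝 (0 : ℝ), y ^ 3 ≤ c (0, y)) ∨ ∀ᶠ y in 𝓝 (0 : ℝ), y ^ 3 ≤ (-c) (0, y) := by
  have h0 := mem_of_mem_nhds hO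
  have oO : IsOpen (interior O ∩ {z : P | z.2 < 0}) :=
    isOpen_interior.inter (isOpen_lt continuous_snd continuous_const)
  have g0 := fun z (hz : z ∈ interior O ∩ {z : P | z.2 < 0}) => hG z hz.2
  have g1 := D_eq oO g0 (1, 0)
  have g2 := D_eq oO g1 (1, 0)
  have k0 : ∀ z ∈ interior O ∩ {z : P | z.2 < 0}, (a * c - b * b) z = (w * (sX * sX)) z :=
    fun z hz => by
      have := g.ga z (interior_subset hz.1)
      rw [g2 z hz] at this
      simp at this ⊢
      linear_combination -this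
  have kx := D_eq oO k0 (1, 0)
  have ky := D_eq oO k0 (0, 1)
  have kxx := at_zero hO (D_eq oO kx (1, 0))
  have kxy := at_zero hO (D_eq oO kx (0, 1))
  have kyy := at_zero hO (D_eq oO ky (0, 1))
  replace kx := at_zero hO kx
  replace ky := at_zero hO ky
  replace k0 := at_zero hO k0
  replace g0 := at_zero hO g0
  replace g1 := at_zero hO g1
  have w0 := g.iw 0 h0
  have c1 := g.c1 0 h0
  have c2 := g.c2 0 h0
  rcases lt_trichotomy (c 0) 0 with h | h | h
  · exact Or.inr (lower (Or.inl (by simpa using h)))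
  swap
  · exact Or.inl (lower (Or.inl h))
  simp [h] at g0 g1 k0
  simp only [g0, g1, h, k0, mul_one, one_mul, mul_zero, add_zero, sub_zero] at w0 c1 c2
  simp only [map_add, map_sub, Sm.D_mul, Dx_sX, Dy_sX, Sm.add_apply, Sm.sub_apply, Sm.mul_apply,
    h, k0, w0, c1, sX_apply, Prod.fst_zero, mul_one, one_mul, mul_zero, zero_mul, add_zero, zero_add,
    sub_zero, Sm.one_apply] at kx ky kxx kxy kyy
  rcases eq_or_ne (a 0) 0 with ha | ha
  · simp only [ha, zero_mul, add_zero, sub_eq_zero] at c2 kxx kxy kyy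
    rw [c2] at kxy kyy
    have : Sm.D (1, 0) c 0 = 0 := by
      linear_combination (-1 / 2 * Sm.D (1, 0) c 0) * kxx + Sm.D (1, 0) b 0 * kxy -
        (1 / 2 * Sm.D (1, 0) a 0) * kyy
    rw [this] at kxx
    nlinarith [mul_self_nonneg (Sm.D (1, 0) b 0)]
  · have cx := (mul_eq_zero.mp kx).resolve_left ha
    have cy := (mul_eq_zero.mp ky).resolve_left ha
    have cyy : Sm.D (0, 1) (Sm.D (0, 1) c) 0 = 2 * a 0 := mul_left_cancel₀ ha (by
      rw [cy] at kyy
      rw [cx] at c2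
      linear_combination kyy + 2 * (Sm.D (0, 1) b 0 - a 0) * c2)
    rcases ha.lt_or_gt with ha | ha
    · exact Or.inr (lower (Or.inr ⟨by simp [h], by simp [cy], by simp [cyy]; linarith⟩))
    · exact Or.inl (lower (Or.inr ⟨h, cy, by simpa [cyy] using ha⟩))

end Vale.Agent.P229
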