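import Vale.Agent.P229.Cls

/-! P229: integration tools on the plane. -/

open Set MeasureTheory Filter
open scoped ContDiff Topology
noncomputable section
namespace Vale.Agent.P229
open Vale.Agent.P347

/-- Closed box. -/
def box (a b : ℝ) : Set P := {z | |z.1| ≤ a ∧ |z.2| ≤ b}
/-- Open box. -/
def obox (a b : ℝ) : Set P := {z | |z.1| < a ∧ |z.2| < b}

variable {a b a' b' : ℝ} {ι : Type}

lemma box_eq : box a b = Icc (-a) a ×ˢ Icc (-b) b := by
  ext; simp only [box, abs_le, mem_ofPred_eq, mem_prod, mem_Icc]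
lemma isCompact_box : IsCompact (box a b) := box_eq ▸ isCompact_Icc.prod isCompact_Icc
lemma isClosed_box : IsClosed (box a b) := isCompact_box.isClosed
lemma meas_box : MeasurableSet (box a b) := isClosed_box.measurableSet
lemma isOpen_obox : IsOpen (obox a b) :=
  (isOpen_lt continuous_fst.abs continuous_const).inter
    (isOpen_lt continuous_snd.abs continuous_const)
lemma box_obox (h1 : a < a') (h2 : b < b') : box a b ⊆ obox a' b' :=
  fun _ h => ⟨h.1.trans_lt h1, h.2.trans_lt h2⟩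
lemma obox_box : obox a b ⊆ box a b := fun _ h => ⟨h.1.le, h.2.le⟩
lemma box_mono (h1 : a ≤ a') (h2 : b ≤ b') : box a b ⊆ box a' b' :=
  fun _ h => ⟨h.1.trans h1, h.2.trans h2⟩
lemma convex_obox : Convex ℝ (obox a b) := by
  have : obox a b = Ioo (-a) a ×ˢ Ioo (-b) b := by ext; simp [obox, abs_lt]
  exact this ▸ (convex_Ioo _ _).prod (convex_Ioo _ _)

lemma D_zero {f : Sm P} {O : Set P} (hO : IsOpen O) (h : ∀ z ∈ O, f z = 0) (v : P) :
    ∀ z ∈ O, Sm.D v f z = 0 :=
  Zr.D (ι := Unit) (O := fun _ => O) (f := fun _ => f) (fun _ => hO) (fun _ => h) v ()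

lemma int_D {f : Sm P} (hs : HasCompactSupport f) (v : P) : ∫ z, Sm.D v f z = 0 := by
  have := integral_mul_fderiv_eq_neg_fderiv_mul_of_integrable (μ := (volume : Measure P))
    (f := fun _ => (1 : ℝ)) (g := f) (v := v) (by simp)
    (by
      simp only [one_mul]
      exact (Sm.D v f).cont.integrable_of_hasCompactSupport (hs.fderiv_apply ℝ v))
    (by simpa using f.cont.integrable_of_hasCompactSupport hs)
    (fun x _ => differentiableAt_const _) fun x _ => f.diff x
  simpa [Sm.D_apply] using this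

lemma cs_D {f : Sm P} (hs : HasCompactSupport f) (v : P) : HasCompactSupport (Sm.D v f) :=
  hs.fderiv_apply ℝ v

lemma int_of {f : Sm P} (hs : HasCompactSupport f) : Integrable f :=
  f.cont.integrable_of_hasCompactSupport hs

lemma int_div {p q : Sm P} (hp : HasCompactSupport p) (hq : HasCompactSupport q) :
    ∫ z, (Sm.D (1, 0) p z + Sm.D (0, 1) q z) = 0 := by
  rw [integral_add (int_of (cs_D hp _)) (int_of (cs_D hq _)), int_D hp, int_D hq, add_zero]

lemma ibp (f : Sm P) {g : Sm P} (hs : HasCompactSupport g) (v : P) :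
    ∫ z, f z * Sm.D v g z = -∫ z, Sm.D v f z * g z := by
  have := int_D (f := f * g) hs.mul_left v
  simp only [Sm.D_mul, Sm.add_apply] at this
  rw [integral_add (int_of (f := Sm.D v f * g) hs.mul_left)
    (int_of (f := f * Sm.D v g) (cs_D hs v).mul_left)] at this
  simp only [Sm.mul_apply] at this
  linarith

lemma exists_cut (ha : 0 < a) (h1 : a < a') (hb : 0 < b) (h2 : b < b') :
    ∃ φ : Sm P, (∀ z ∈ box a b, φ z = 1) ∧ ∀ z ∉ box a' b', φ z = 0 := by
  let f : ContDiffBump (0 : ℝ) := ⟨a, a', ha, h1⟩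
  let g : ContDiffBump (0 : ℝ) := ⟨b, b', hb, h2⟩
  refine ⟨Sm.of (fun z => f z.1 * g z.2)
    ((f.contDiff.comp contDiff_fst).mul (g.contDiff.comp contDiff_snd)), fun z hz => ?_,
    fun z hz => ?_⟩
  · simp only [Sm.of_apply]
    rw [f.one_of_mem_closedBall (by simpa using hz.1), g.one_of_mem_closedBall (by simpa using hz.2),
      one_mul]
  · simp only [Sm.of_apply]
    rcases not_and_or.mp hz with h | h
    · rw [f.zero_of_le_dist (by simpa using (not_le.mp h).le), zero_mul]
    · rw [g.zero_of_le_dist (by simpa using (not_le.mp h).le), mul_zero]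

lemma Bd.fixed (φ : Sm P) {K : Set P} (hK : IsCompact K) (n : ℕ) :
    Bd (fun _ : ι => K) n fun _ => φ := by
  have e : ∀ ψ : Sm P, Ob (fun _ : ι => K) 1 fun _ => ψ := fun ψ => by
    obtain ⟨C, hC⟩ := hK.exists_bound_of_continuousOn ψ.cont.continuousOn
    exact ⟨|C|, abs_nonneg _, fun _ z hz => by simpa using (hC z hz).trans (le_abs_self C)⟩
  induction n generalizing φ with
  | zero => exact e φ
  | succ n ih => exact ⟨e φ, ih (Sm.D _ φ), ih (Sm.D _ φ)⟩

lemma line_deriv (g : Sm P) (z v : P) (t : ℝ) :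
    HasDerivAt (fun s : ℝ => g (z + s • v)) (Sm.D v g (z + t • v)) t := by
  have h1 : HasDerivAt (fun s : ℝ => z + s • v) v t := by
    simpa using ((hasDerivAt_id t).smul_const v).const_add z
  exact (g.hasF _).comp_hasDerivAt t h1

lemma sob1 {g : Sm P} (hs : HasCompactSupport g) (z v : P) (hv : v ≠ 0) (t : ℝ) :
    ‖g (z + t • v)‖ₑ ≤ ∫⁻ s : ℝ, ‖Sm.D v g (z + s • v)‖ₑ := by
  have h1 : ContDiff ℝ 1 fun s : ℝ => g (z + s • v) :=
    (g.smooth.of_le (by simp)).comp (by fun_prop)
  have h2 : HasCompactSupport fun s : ℝ => g (z + s • v) :=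
    hs.comp_isClosedEmbedding ((Homeomorph.addLeft z).isClosedEmbedding.comp
      (isClosedEmbedding_smul_left hv))
  refine (h2.enorm_le_lintegral_Ici_deriv h1 t).trans ((setLIntegral_le_lintegral _ _).trans
    (le_of_eq (lintegral_congr fun s => by rw [(line_deriv g z v s).deriv])))

lemma sob2 {g : Sm P} (hs : HasCompactSupport g) (z : P) :
    |g z| ≤ ∫ w, |Sm.D (0, 1) (Sm.D (1, 0) g) w| := by
  have i1 := int_of (cs_D (cs_D hs (1, 0)) (0, 1))
  have h1 := sob1 hs (0, z.2) (1, 0) (by simp) z.1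
  have h2 := fun s => sob1 (cs_D hs (1, 0)) (s, 0) (0, 1) (by simp) z.2
  simp only [Prod.smul_mk, smul_eq_mul, mul_one, mul_zero, Prod.mk_add_mk, zero_add, add_zero]
    at h1 h2
  have h3 := h1.trans (lintegral_mono h2)
  rw [← lintegral_prod _ i1.aemeasurable.enorm, ← Measure.volume_eq_prod,
    ← ofReal_integral_norm_eq_lintegral_enorm i1, ← ofReal_norm,
    ENNReal.ofReal_le_ofReal_iff (integral_nonneg fun _ => norm_nonneg _)] at h3
  exact h3

/-- Uniform square integrability of a continuous majorant. -/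
structure L2 (K : Set P) (H : ι → P → ℝ) : Prop where
  cont : ∀ d, Continuous (H d)
  one : ∀ d z, 1 ≤ H d z
  bd : ∃ C, ∀ d, ∫ z in K, H d z ^ 2 ≤ C

lemma intOn {g : P → ℝ} (hg : Continuous g) : IntegrableOn g (box a b) :=
  hg.continuousOn.integrableOn_compact isCompact_box

variable {H : ι → P → ℝ} {f : Fm ι}

lemma L2.mono (h : L2 (box a' b') H) (h1 : a ≤ a') (h2 : b ≤ b') : L2 (box a b) H := by
  obtain ⟨C, hC⟩ := h.bd
  exact ⟨h.cont, h.one, C, fun d => (setIntegral_mono_set (intOn ((h.cont d).pow 2))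
    (Eventually.of_forall fun _ => sq_nonneg _) (box_mono h1 h2).eventuallyLE).trans (hC d)⟩

lemma sobolev (ha : 0 < a) (h1 : a < a') (hb : 0 < b) (h2 : b < b') (hH : L2 (box a' b') H)
    (f0 : Ob (fun _ => box a' b') H f) (fx : Ob (fun _ => box a' b') H (Dx f))
    (fy : Ob (fun _ => box a' b') H (Dy f)) (fxy : Ob (fun _ => box a' b') H (Dy (Dx f))) :
    Ob (fun _ => box a b) 1 f := by
  obtain ⟨φ, p1, p2⟩ := exists_cut ha h1 hb h2
  have B := Bd.fixed (ι := ι) φ (isCompact_box (a := a') (b := b')) 2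
  have : Ob (fun _ => box a' b') H (Dy (Dx ((fun _ => φ) * f))) := by
    simp only [Dv_mul, map_add]
    exact ((B.dx.dy.ob.bmul f0).add (B.dx.ob.bmul fy)).add ((B.dy.ob.bmul fx).add (B.ob.bmul fxy))
  obtain ⟨C, C0, hC⟩ := this
  obtain ⟨C', hC'⟩ := hH.bd
  refine ⟨C * |C'|, by positivity, fun d z hz => ?_⟩
  have z0 : ∀ w ∉ box a' b', (φ * f d) w = 0 := fun w hw => by simp [p2 w hw]
  have h3 := sob2 (g := φ * f d) (HasCompactSupport.intro isCompact_box z0) z
  rw [Sm.mul_apply, p1 z hz, one_mul, ← setIntegral_eq_integral_of_forall_compl_eq_zero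
    (s := box a' b') fun w hw => by
      rw [D_zero isClosed_box.isOpen_compl (D_zero isClosed_box.isOpen_compl z0 _) _ w hw,
        abs_zero]] at h3
  refine h3.trans ((setIntegral_mono_on (g := fun w => C * H d w ^ 2) (intOn (Sm.cont _).abs)
    (intOn (continuous_const.mul ((hH.cont d).pow 2))) meas_box fun w hw => ?_).trans ?_)
  · refine (hC d w hw).trans (mul_le_mul_of_nonneg_left ?_ C0)
    nlinarith [hH.one d w]
  · rw [integral_const_mul, Pi.one_apply, Pi.one_apply, mul_one]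
    exact mul_le_mul_of_nonneg_left ((hC' d).trans (le_abs_self _)) C0

lemma Bd.lip {r ρ : ι → ℝ} (h : Bd (fun d => obox (r d) (ρ d)) 1 f) :
    Ob (fun d => obox (r d) (ρ d)) (fun _ z => |z.1| + |z.2|) (f - P229.cst fun d => f d 0) := by
  obtain ⟨C, C0, hC⟩ := h.dx.ob
  obtain ⟨C', C0', hC'⟩ := h.dy.ob
  refine ⟨C + C', by positivity, fun d z hz => ?_⟩
  have h0 : (0 : P) ∈ obox (r d) (ρ d) :=
    ⟨by simpa using (abs_nonneg _).trans_lt hz.1, by simpa using (abs_nonneg _).trans_lt hz.2⟩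
  have := convex_obox.norm_image_sub_le_of_norm_fderiv_le (𝕜 := ℝ) (f := f d) (C := C + C')
    (fun w _ => (f d).diff w) (fun w hw => ?_) h0 hz
  · refine this.trans (mul_le_mul_of_nonneg_left ?_ (by positivity))
    rw [sub_zero, Prod.norm_def]
    exact max_le (le_add_of_nonneg_right (abs_nonneg _)) (le_add_of_nonneg_left (abs_nonneg _))
  · refine ContinuousLinearMap.opNorm_le_bound _ (by positivity) fun v => ?_
    have e : v = v.1 • ((1, 0) : P) + v.2 • ((0, 1) : P) := by simp
    have a1 : |fderiv ℝ (f d) w (1, 0)| ≤ C := (hC d w hw).trans_eq (mul_one C)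
    have a2 : |fderiv ℝ (f d) w (0, 1)| ≤ C' := (hC' d w hw).trans_eq (mul_one C')
    have a3 : |v.1| ≤ ‖v‖ := norm_fst_le v
    have a4 : |v.2| ≤ ‖v‖ := norm_snd_le v
    conv_lhs => rw [e, map_add, map_smul, map_smul]
    refine (abs_add_le _ _).trans ?_
    simp only [smul_eq_mul, abs_mul]
    nlinarith [mul_le_mul a3 a1 (abs_nonneg _) (norm_nonneg _),
      mul_le_mul a4 a2 (abs_nonneg _) (norm_nonneg _)]

end Vale.Agent.P229
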