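import Vale.Agent.P229.Pos

/-! P229: bootstrapping the derivative bounds. -/

open Set MeasureTheory Filter
open scoped ContDiff Topology
noncomputable section
namespace Vale.Agent.P229
open Vale.Agent.P347

variable {ι : Type}

lemma vol_box {a b : ℝ} (ha : 0 ≤ a) (hb : 0 ≤ b) : volume.real (box a b) = 4 * a * b := by
  rw [box_eq, Measure.real, Measure.volume_eq_prod, Measure.prod_prod, Real.volume_Icc,
    Real.volume_Icc, ← ENNReal.ofReal_mul (by linarith), ENNReal.toReal_ofReal (by nlinarith)]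
  ring

lemma cont_prof (l : ι → ℝ) (d) : Continuous (prof l d) :=
  (bt.cont.comp (by fun_prop)).mul (bt.cont.comp (by fun_prop))

lemma L2_base {l : ι → ℝ} (hl : ∀ d, 0 < l d) (a b : ℝ) :
    L2 (box a b) fun d z => 1 + l d * prof l d z := by
  refine ⟨fun d => continuous_const.add (continuous_const.mul (cont_prof l d)), fun d z =>
    le_add_of_nonneg_right (mul_nonneg (hl d).le (prof_nonneg d z)),
    volume.real (box a b) * 2 + 2 * 16, fun d => ?_⟩
  have h0 := hl d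
  have i1 : Integrable ((box (2 / l d) (2 / l d)).indicator fun _ : P => l d ^ 2) :=
    (integrableOn_const isCompact_box.measure_lt_top.ne).integrable_indicator meas_box
  refine (setIntegral_mono_on (g := fun z => 2 + 2 * (box (2 / l d) (2 / l d)).indicator
    (fun _ => l d ^ 2) z) (intOn (g := fun z => (1 + l d * prof l d z) ^ 2)
      ((continuous_const.add (continuous_const.mul (cont_prof l d))).pow 2))
    ((intOn continuous_const).add (i1.const_mul 2).integrableOn) meas_box fun z _ => ?_).trans ?_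
  · have : (l d * prof l d z) ^ 2 ≤ (box (2 / l d) (2 / l d)).indicator (fun _ => l d ^ 2) z := by
      by_cases hz : z ∈ box (2 / l d) (2 / l d)
      · rw [indicator_of_mem hz, mul_pow]
        exact mul_le_of_le_one_right (sq_nonneg _) (pow_le_one₀ (prof_nonneg d z) (prof_le d z))
      · rw [indicator_of_notMem hz, prof]
        rcases not_and_or.mp hz with h | h
        · rw [bt_zero (l d * z.1)]; · simp
          rwa [abs_mul, abs_of_pos h0, ← div_lt_iff₀' h0, ← not_le]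
        · rw [bt_zero (l d * z.2)]; · simp
          rwa [abs_mul, abs_of_pos h0, ← div_lt_iff₀' h0, ← not_le]
    nlinarith [sq_nonneg (1 - l d * prof l d z)]
  · rw [integral_add (intOn continuous_const) (i1.const_mul 2).integrableOn, integral_const_mul,
      setIntegral_const, smul_eq_mul]
    gcongr
    refine (setIntegral_le_integral i1 (Eventually.of_forall fun z =>
      indicator_nonneg (fun _ _ => sq_nonneg _) z)).trans (le_of_eq ?_)
    rw [integral_indicator meas_box, setIntegral_const, vol_box (by positivity) (by positivity),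
      smul_eq_mul]
    field_simp; norm_num

lemma L2.extend {a b : ℝ} {H : ι → P → ℝ} (h : L2 (box a b) H) {U V : Fm ι}
    (hU : ∃ C, ∀ d, ∫ z in box a b, (U d z ^ 2 + V d z ^ 2) ≤ C) :
    L2 (box a b) fun d z => H d z + |U d z| + |V d z| := by
  obtain ⟨C, hC⟩ := h.bd
  obtain ⟨C', hC'⟩ := hU
  have c1 : ∀ d, Continuous fun z => H d z + |U d z| + |V d z| :=
    fun d => ((h.cont d).add (U d).cont.abs).add (V d).cont.abs
  refine ⟨c1, fun d z => by linarith [h.one d z, abs_nonneg (U d z), abs_nonneg (V d z)],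
    3 * (C + C'), fun d => ?_⟩
  have i1 := intOn (a := a) (b := b) (g := fun z => H d z ^ 2) ((h.cont d).pow 2)
  have i2 := intOn (a := a) (b := b) (g := fun z => U d z ^ 2 + V d z ^ 2)
    (((U d).cont.pow 2).add ((V d).cont.pow 2))
  refine (setIntegral_mono_on (g := fun z => 3 * (H d z ^ 2 + (U d z ^ 2 + V d z ^ 2)))
    (intOn (a := a) (b := b) (g := fun z => (H d z + |U d z| + |V d z|) ^ 2) ((c1 d).pow 2))
    (intOn (by have := h.cont d; have := (U d).cont; have := (V d).cont; fun_prop)) meas_box fun z _ => ?_).trans ?_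
  · rw [← sq_abs (U d z), ← sq_abs (V d z)]
    nlinarith [sq_nonneg (H d z - |U d z|), sq_nonneg (H d z - |V d z|),
      sq_nonneg (|U d z| - |V d z|)]
  · rw [integral_const_mul, integral_add i1 i2]
    linarith [hC d, hC' d]

namespace Dt
variable {D : Dt ι} {Q : ι → Set P} {H : ι → P → ℝ} {n : ℕ}

/-- The top order source. -/
def src (D : Dt ι) (n : ℕ) : Fm ι := -term D.l 2 (n + 2) (-D.m + (n + 2 : ℕ))

/-- Control of the solution up to order `n`. -/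
structure St (D : Dt ι) (Q : ι → Set P) (H : ι → P → ℝ) (n : ℕ) : Prop where
  fam : D.Fam
  hQ : ∀ d, Q d ⊆ D.O d
  h1 : ∀ d, ∀ z ∈ Q d, 1 ≤ H d z
  h2 : ∀ d z, D.l d * prof D.l d z ≤ H d z
  n1 : 8 ≤ n
  n2 : n ≤ D.m
  tu : Tc Q H n D.u
  tv : Tc Q H n D.v

namespace St
variable (h : D.St Q H n)
include h

lemma wt {p : ℤ} (hp : p ≤ 1) (d z) : D.l d ^ p * prof D.l d z ≤ H d z :=
  (mul_le_mul_of_nonneg_right ((zpow_le_zpow_right₀ (h.fam.l2 d) hp).trans_eq (zpow_one _))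
    (prof_nonneg d z)).trans (h.h2 d z)

lemma tkt : Tc Q H (n + 1) D.kt where
  lo i hi := (h.fam.bkt.it_ob (by have := h.n2; omega)).sub_set h.hQ
  hi i hi := by
    rw [kt, it_sub, it_term h.fam.l0]
    exact ((((h.fam.bk0 (n := i)).it_ob le_rfl).sub_set h.hQ).mono h.h1).sub
      ((ob_term h.fam.l0).mono fun d z _ => h.wt (by have := h.n2; omega) d z)

lemma osrc {f : Fm ι} (hf : Ob Q (fun _ z => |z.1| + |z.2|) f) : Ob Q H (f * D.src n) := by
  rw [src, mul_neg]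
  exact ((ob_coord_term h.fam.l0 hf).mono fun d z _ =>
    h.wt (by have := h.n2; push_cast; omega) d z).neg

lemma eqs : Ob Q H (Dy^[n + 1] D.R1 - (D.τ * Dy (Dy^[n + 1] D.u) + D.K * D.A * Dy (Dy^[n + 1] D.v) +
      D.al1 (n + 1) * Dy^[n + 1] D.u + D.be1 (n + 1) * Dy^[n + 1] D.v + D.A * D.v * D.w * D.src n)) ∧
    Ob Q H (Dy^[n + 1] D.R2 - (D.τ * Dy (Dy^[n + 1] D.v) - D.A * Dy (Dy^[n + 1] D.u) +
      D.al2 (n + 1) * Dy^[n + 1] D.u + D.be2 (n + 1) * Dy^[n + 1] D.v)) ∧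
    Ob Q H (Dy^[n] D.R1 - (D.τ * Dy^[n + 1] D.u + D.K * D.A * Dy^[n + 1] D.v)) ∧
    Ob Q H (Dy^[n] D.R2 - (D.τ * Dy^[n + 1] D.v - D.A * Dy^[n + 1] D.u)) ∧
    (∀ i < n, Ob Q H (Dy^[i] D.R1)) ∧ ∀ i < n, Ob Q H (Dy^[i] D.R2) := by
  have n1 := h.n1
  have n2 := h.n2
  have n7 : 7 ≤ n := by omega
  set U := Dy^[n + 1] D.u with hU
  set V := Dy^[n + 1] D.v with hV
  have c : ∀ {f}, Bd D.O (n + 1) f → Tp Q H n U V (D.src n) f 0 0 0 := Tp.ofBd h.h1 h.hQ
  have tw := c (h.fam.bw.le (by omega))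
  have t1 := c Bd.one
  have tu : Tp Q H n U V (D.src n) D.u 1 0 0 := ⟨h.tu, by convert Ob.zero; rw [← hU]; ring⟩
  have tv : Tp Q H n U V (D.src n) D.v 0 1 0 := ⟨h.tv, by convert Ob.zero; rw [← hV]; ring⟩
  have tk : Tp Q H n U V (D.src n) D.kt 0 0 0 := Tp.coef h.tkt.pred (h.tkt.hi _ le_rfl)
  have tky : Tp Q H n U V (D.src n) (Dy D.kt) 0 0 1 := ⟨h.tkt.dy, by
    convert (((h.fam.bk0 (n := n + 2)).it_ob le_rfl).sub_set h.hQ).mono h.h1 using 1
    rw [← Function.iterate_succ_apply, kt, it_sub, it_term h.fam.l0, src, zero_add]; ring⟩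
  have tK : Tp Q H n U V (D.src n) D.K _ _ _ := tw.mul n7 tk
  have tKy := ((c (h.fam.bw.dy.le (by omega))).mul n7 tk).add (tw.mul n7 tky)
  rw [← Dv_mul, ← K] at tKy
  have tγ := c (h.fam.bγ.le (by omega))
  have tτ : Tp Q H n U V (D.src n) D.τ _ _ _ := tw.mul n7 tu
  have tA : Tp Q H n U V (D.src n) D.A _ _ _ := tw.mul n7 tv
  have p1 := (tA.mul n7 tv).mul n7 tKy
  have p2 := (tγ.mul n7 tu).mul n7 ((((tK.mul n7 tv).mul n7 tv).add (tu.mul n7 tu)).add t1)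
  have p3 := (tγ.mul n7 tv).mul n7 ((((tK.mul n7 tv).mul n7 tv).add (tu.mul n7 tu)).add t1.neg)
  rw [← sub_eq_add_neg] at p3
  refine ⟨?_, ?_, ?_, ?_, ?_, ?_⟩
  · convert (((tτ.mulD n1 h.tu).add ((tK.mul n7 tA).mulD n1 h.tv)).add p1.top).sub p2.top using 1
    simp only [R1, it_add, it_sub, ← hU, ← hV, al1, be1, be0, Dv_mul _ D.K]
    ext d z; simp [A]; ring
  · convert ((tτ.mulD n1 h.tv).sub (tA.mulD n1 h.tu)).sub p3.top using 1
    simp only [R2, it_sub, ← hU, ← hV, al2, be2]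
    ext d z; simp; ring
  · convert (((tτ.tc.mid3 n7 h.tu).add ((tK.mul n7 tA).tc.mid3 n7 h.tv)).add
      (p1.tc.hi _ le_rfl)).sub (p2.tc.hi _ le_rfl) using 1
    simp only [R1, it_add, it_sub, ← hU, ← hV]
    ring
  · convert ((tτ.tc.mid3 n7 h.tv).sub (tA.tc.mid3 n7 h.tu)).sub (p3.tc.hi _ le_rfl) using 1
    simp only [R2, it_sub, ← hU, ← hV]
    ring
  · obtain ⟨k, rfl⟩ : ∃ k, n = k + 1 := ⟨n - 1, by omega⟩
    exact fun i hi => ((((tτ.tc.pred.mul (by omega) h.tu.dy).add ((tK.mul n7 tA).tc.pred.mul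
      (by omega) h.tv.dy)).add p1.tc.pred).sub p2.tc.pred).hi i (by omega)
  · obtain ⟨k, rfl⟩ : ∃ k, n = k + 1 := ⟨n - 1, by omega⟩
    exact fun i hi => (((tτ.tc.pred.mul (by omega) h.tv.dy).sub (tA.tc.pred.mul
      (by omega) h.tu.dy)).sub p3.tc.pred).hi i (by omega)

lemma zu (i : ℕ) : Zr D.O (Dx (Dy^[i] D.u) - Dy^[i] D.R1) := by
  rw [← it_Dx, ← it_sub]; exact h.fam.eu.it D.oO i
lemma zv (i : ℕ) : Zr D.O (Dx (Dy^[i] D.v) - Dy^[i] D.R2) := by
  rw [← it_Dx, ← it_sub]; exact h.fam.ev.it D.oO i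

omit h in
lemma oXY : Ob Q (fun _ z => |z.1| + |z.2|) cX ∧ Ob Q (fun _ z => |z.1| + |z.2|) cY :=
  ⟨⟨1, zero_le_one, fun _ _ _ => by simp⟩, ⟨1, zero_le_one, fun _ _ _ => by simp⟩⟩

end St

/-- Families with fixed lens size on which the multiplier forms are positive. -/
structure Fix (D : Dt ι) (ρ r : ℝ) : Prop where
  fam : D.Fam
  ρ0 : 0 < ρ
  r0 : 0 < r
  hO : D.O = fun _ => obox (2 * r) (2 * ρ)
  neg : ∀ d, D.K d 0 ≤ -(r ^ 2 / 2)
  pos : ∀ n : ℕ, n ≤ D.m → ∃ c, 0 < c ∧ ∀ d, ∀ z ∈ obox (2 * r) (2 * ρ),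
    (∀ x y : ℝ, c * (x ^ 2 + y ^ 2) ≤
      qU (D.bb (n + 1)) D.cc D.τ D.A (D.al1 (n + 1)) (D.al2 (n + 1)) d z * x ^ 2 +
      qV (D.bb (n + 1)) D.cc D.τ D.A D.K (D.be1 (n + 1)) (D.be2 (n + 1)) d z * y ^ 2 +
      qC (D.bb (n + 1)) D.cc D.τ D.A D.K (D.al1 (n + 1)) (D.al2 (n + 1)) (D.be1 (n + 1))
        (D.be2 (n + 1)) d z * (x * y)) ∧
    c ≤ D.A d z ∧ (z ∉ obox (3 / 2 * r) (3 / 2 * ρ) → c ≤ D.K d z)

variable {ρ r s s' : ℝ}

lemma Fix.en (F : D.Fix ρ r) (s1 : 3 / 2 ≤ s) (s2 : s < s') (s3 : s' < 2)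
    (hH : L2 (box (s' * r) (s' * ρ)) H) (h : D.St (fun _ => box (s' * r) (s' * ρ)) H n) :
    ∃ C, ∀ d, ∫ z in box (s * r) (s * ρ), (Dy^[n + 1] D.u d z ^ 2 + Dy^[n + 1] D.v d z ^ 2) ≤ C := by
  obtain ⟨c, c0, hc⟩ := F.pos n h.n2
  obtain ⟨q1, q2, q3, q4, -, -⟩ := h.eqs
  have ρ0 := F.ρ0
  have r0 := F.r0
  have b : ∀ {f}, Ob D.O 1 f → Ob (fun _ => box (s' * r) (s' * ρ)) 1 f := fun hf => hf.sub_set h.hQ
  have be := b ((F.fam.bA.ob.bmul F.fam.bv.ob).bmul F.fam.ow)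
  have o1 := b (F.fam.obb1 (n + 1))
  have o2 := b F.fam.occ
  refine energy (a'' := 2 * r) (b'' := 2 * ρ) (U' := Dy^[n] D.u) (V' := Dy^[n] D.v)
    (R1 := Dy^[n + 1] D.R1 - (D.τ * Dy (Dy^[n + 1] D.u) + D.K * D.A * Dy (Dy^[n + 1] D.v) +
      D.al1 (n + 1) * Dy^[n + 1] D.u + D.be1 (n + 1) * Dy^[n + 1] D.v))
    (by positivity) (by gcongr) (by gcongr) (by positivity) (by gcongr) (by gcongr)
    (it_succ _ _).symm (it_succ _ _).symm ?_ ?_ ?_ ?_ c0 (fun d z hz => (hc d z hz).1)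
    (fun d z hz => (hc d z hz).2.1) (fun d z hz hz' => (hc d z hz).2.2 fun h5 =>
      hz' ⟨h5.1.trans_le (by gcongr), h5.2.trans_le (by gcongr)⟩)
    (b F.fam.bτ.ob) (b F.fam.bA.ob) (b F.fam.bK.ob) o1 o2 hH ?_ (o1.bmul q2) ?_ (o2.bmul q2) q3 q4
    (h.tu.hi n le_rfl)
  · rw [← F.hO]; convert h.zu (n + 1) using 1; ring
  · rw [← F.hO]; convert h.zv (n + 1) using 1; ring
  · rw [← F.hO]; convert h.zu n using 1; ring
  · rw [← F.hO]; convert h.zv n using 1; ring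
  · convert (o1.bmul q1).add (be.bmul (h.osrc (St.oXY.2.add
      (St.oXY.1.mulb (b (F.fam.bbx (n + 1)).ob))))) using 1
    rw [← bb]; ring
  · convert (o2.bmul q1).add (be.bmul (h.osrc ((St.oXY.1.mulb (b F.fam.bA.ob)).smul
      (1 / 2 : ℝ)))) using 1
    rw [← cc]; ring

lemma Fix.sub (F : D.Fix ρ r) (s3 : s < 2) (d : ι) : box (s * r) (s * ρ) ⊆ D.O d := by
  have := F.ρ0; have := F.r0
  rw [F.hO]; exact box_obox (by gcongr) (by gcongr)

lemma Tc.next {a b a' b' : ℝ} {f R : Fm ι} {H' : ι → P → ℝ} (ha : 0 < a) (h1 : a < a') (hb : 0 < b)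
    (h2 : b < b') (hH : L2 (box a' b') H) (t : Tc (fun _ => box a' b') H n f)
    (z : ∀ i, Zr (fun _ => box a' b') (Dx (Dy^[i] f) - Dy^[i] R))
    (hR : ∀ i < n, Ob (fun _ => box a' b') H (Dy^[i] R)) (e1 : ∀ d z, H d z ≤ H' d z)
    (e2 : ∀ d z, |Dy^[n + 1] f d z| ≤ H' d z) : Tc (fun _ => box a b) H' (n + 1) f := by
  have hs := fun _ : ι => box_mono h1.le h2.le
  refine ⟨fun i hi => ?_, fun i hi => ?_⟩
  · rcases Nat.lt_or_ge (i + 2) n with h | h
    · exact (t.lo i h).sub_set hs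
    · refine sobolev ha h1 hb h2 hH (t.hi i (by omega)) ((hR i (by omega)).congr (z i))
        (it_succ i f ▸ t.hi (i + 1) (by omega)) ?_
      rw [Dv_comm, ← it_succ]
      exact (hR (i + 1) (by omega)).congr (z (i + 1))
  · rcases hi.lt_or_eq with h | rfl
    · exact ((t.hi i (by omega)).sub_set hs).mono fun d z _ => e1 d z
    · exact ⟨1, zero_le_one, fun d z _ => by rw [one_mul]; exact e2 d z⟩

theorem Fix.lev (F : D.Fix ρ r) (n : ℕ) (n1 : 8 ≤ n) (n2 : n ≤ D.m) : ∀ s, 3 / 2 ≤ s → s < 2 →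
    ∃ H, L2 (box (s * r) (s * ρ)) H ∧ D.St (fun _ => box (s * r) (s * ρ)) H n := by
  induction n, n1 using Nat.le_induction with
  | base =>
    intro s _ s2
    have L := L2_base F.fam.l0 (s * r) (s * ρ)
    exact ⟨_, L, F.fam, F.sub s2, fun d z _ => L.one d z, fun d z => le_add_of_nonneg_left zero_le_one,
      le_rfl, n2, Tc.ofBd (fun d z _ => L.one d z) (F.sub s2) F.fam.bu,
      Tc.ofBd (fun d z _ => L.one d z) (F.sub s2) F.fam.bv⟩
  | succ n n1 ih =>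
    intro s s1 s2
    have ρ0 := F.ρ0
    have r0 := F.r0
    have s3 : s < (s + 2) / 2 := by linarith
    obtain ⟨H, L, h⟩ := ih (by omega) ((s + 2) / 2) (by linarith) (by linarith)
    have L' := (L.mono (by gcongr) (by gcongr)).extend (F.en s1 s3 (by linarith) L h)
    obtain ⟨-, -, -, -, q5, q6⟩ := h.eqs
    have e : ∀ d z, H d z ≤ H d z + |Dy^[n + 1] D.u d z| + |Dy^[n + 1] D.v d z| := fun d z => by
      linarith [abs_nonneg (Dy^[n + 1] D.u d z), abs_nonneg (Dy^[n + 1] D.v d z)]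
    refine ⟨_, L', F.fam, F.sub s2, fun d z _ => L'.one d z, fun d z => (h.h2 d z).trans (e d z),
      by omega, n2, Tc.next (by positivity) (by gcongr) (by positivity) (by gcongr) L h.tu
        (fun i d z hz => h.zu i d z (h.hQ d hz)) q5 e fun d z => ?_,
      Tc.next (by positivity) (by gcongr) (by positivity) (by gcongr) L h.tv
        (fun i d z hz => h.zv i d z (h.hQ d hz)) q6 e fun d z => ?_⟩
    · linarith [L.one d z, abs_nonneg (Dy^[n + 1] D.v d z)]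
    · linarith [L.one d z, abs_nonneg (Dy^[n + 1] D.u d z)]

end Dt
end Vale.Agent.P229
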