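import Vale.Agent.P229.Geo

/-! P229: the metric coefficient. -/

open Set MeasureTheory Filter
open scoped ContDiff Topology
noncomputable section
namespace Vale.Agent.P229
open Vale.Agent.P347

lemma bdd_iter {f : Sm P} (hs : HasCompactSupport f) (j : ℕ) :
    ∃ C, 0 ≤ C ∧ ∀ k ≤ j, ∀ z, ‖iteratedFDeriv ℝ k f z‖ ≤ C := by
  choose C hC using fun k : ℕ => (hs.iteratedFDeriv (𝕜 := ℝ) k).exists_bound_of_continuous
    (f.smooth.continuous_iteratedFDeriv (m := k) (by exact_mod_cast le_top))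
  refine ⟨∑ k ∈ Finset.range (j + 1), |C k|, by positivity, fun k hk z => (hC k z).trans
    ((le_abs_self _).trans (Finset.single_le_sum (f := fun k => |C k|) (fun _ _ => abs_nonneg _)
    (Finset.mem_range_succ_iff.mpr hk)))⟩

/-- The unperturbed coefficient. -/
def G0 : Sm P := 1 + sX - (1 / 12 : ℝ) • (sX * sX * sX * sX)

theorem lens (j : ℕ) : ∃ T : Sm P, (∀ k ≤ j, ∀ z, ‖iteratedFDeriv ℝ k T z‖ ≤ (1 / 2) ^ j) ∧
    (∀ z : P, (1 / 2) ^ j / 4 < |z.2| → T z = 0) ∧ ∃ m ρ r l, 2 * r ≤ (1 / 2) ^ j / 4 ∧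
    2 * ρ ≤ (1 / 2) ^ j / 4 ∧ (∀ z ∈ obox (2 * r) (2 * ρ), Gf m ρ r l z = G0 z + T z) ∧
    ∀ w a b c, ¬Sol (8 ^ j) m ρ r l w a b c := by
  have e0 : (0 : ℝ) < (1 / 2) ^ j := by positivity
  have e1 : (1 / 2 : ℝ) ^ j ≤ 1 := pow_le_one₀ (by norm_num) (by norm_num)
  set ε : ℝ := (1 / 2) ^ j
  obtain ⟨ρ, h1, ρ0, ρ1⟩ := ((core (N := 8 ^ j) (by positivity) (m := j + 8) (by omega)).and
    (Ioc_mem_nhdsGT (show 0 < ε / 12 by positivity))).exists
  obtain ⟨φ, p1, p2⟩ := exists_cut (a := 2 * ρ) (a' := 3 * ρ) (b := 2 * ρ) (b' := 3 * ρ)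
    (by positivity) (by linarith) (by positivity) (by linarith)
  set Φ := φ * ((1 / 2 : ℝ) • (sX * sX * (1 - (ρ ^ 2)⁻¹ • (sY * sY)))) with hΦ
  obtain ⟨C, C0, hC⟩ := bdd_iter (f := Φ) (HasCompactSupport.intro
    (isCompact_box (a := 3 * ρ) (b := 3 * ρ)) fun z hz => by simp [hΦ, p2 z hz]) j
  obtain ⟨C', C0', hC'⟩ := bdd_iter (cs_term (l := fun _ : Unit => 1) (fun _ => one_pos) 0 0 0 ()) j
  set r := min (ρ ^ 2) (ε / 2 / (C + 1)) with hr
  have r0 : 0 < r := by positivity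
  have r1 : r ≤ ρ := (min_le_left _ _).trans (by nlinarith)
  have r2 : r * (C + 1) ≤ ε / 2 := (le_div_iff₀ (by positivity)).mp (min_le_right _ _)
  obtain ⟨l, h2, l1, l2, l3⟩ := ((h1 r r0 (min_le_left _ _)).and ((eventually_ge_atTop 1).and
    ((tendsto_inv_atTop_zero.eventually_le_const (show 0 < ε / 4 by positivity)).and
    (tendsto_inv_atTop_zero.eventually_le_const (show 0 < ε / 2 / (C' + 1) by positivity))))).exists
  have l0 : 0 < l := one_pos.trans_le l1
  set B := term (fun _ : Unit => 1) 0 0 0 () with hB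
  set p : ℤ := -(j + 8 : ℕ) - 2 with hp
  have eT : ((r ^ 2 • Φ + term (fun _ : Unit => l) 0 0 p () : Sm P) : P → ℝ) =
      fun z => r ^ 2 • Φ z + l ^ p • B (l • z) := by
    ext z; simp [hB, term_apply, mul_assoc]
  refine ⟨r ^ 2 • Φ + term (fun _ : Unit => l) 0 0 p (), fun k hk z => ?_, fun z hz => ?_,
    j + 8, ρ, r, l, by linarith, by linarith, fun z hz => ?_, h2⟩
  · have s1 : ContDiff ℝ k Φ := Φ.smooth.of_le (by exact_mod_cast le_top)
    have s2 : ContDiff ℝ k B := B.smooth.of_le (by exact_mod_cast le_top)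
    have s3 : ContDiff ℝ k fun z : P => B (l • z) := s2.comp (by fun_prop)
    rw [eT, fun_iteratedFDeriv_add_apply (s1.const_smul _).contDiffAt (s3.const_smul _).contDiffAt,
      iteratedFDeriv_const_smul_apply' s1.contDiffAt, iteratedFDeriv_const_smul_apply' s3.contDiffAt,
      iteratedFDeriv_comp_const_smul l s2]
    refine (norm_add_le _ _).trans ?_
    simp only [norm_smul, Real.norm_eq_abs, abs_sq, ← mul_assoc, ← abs_mul]
    have a1 : |l ^ p * l ^ k| ≤ l⁻¹ := by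
      rw [← zpow_natCast, ← zpow_add₀ l0.ne', abs_of_pos (zpow_pos l0 _), ← zpow_neg_one]
      exact zpow_le_zpow_right₀ l1 (by omega)
    have a2 := mul_le_mul a1 (hC' k hk (l • z)) (norm_nonneg _) (inv_pos.mpr l0).le
    have a3 := mul_le_mul_of_nonneg_left (hC k hk z) (sq_nonneg r)
    rw [le_div_iff₀ (by positivity)] at l3
    nlinarith [inv_pos.mpr l0, mul_le_mul_of_nonneg_left (show r ≤ 1 by linarith) (mul_nonneg r0.le C0)]
  · have a1 : term (fun _ : Unit => l) 0 0 p () z = 0 := by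
      by_contra h
      have := (term_supp h).2
      rw [abs_mul, abs_of_pos l0, ← le_div_iff₀' l0, one_div] at this
      linarith
    simp [a1, hΦ, p2 z fun h => by linarith [h.2]]
  · have a1 := p1 z ⟨by linarith [hz.1], hz.2.le⟩
    simp only [Gf, Dt.G, Dt.e1, Dt.e2, G0, hΦ, ← hp, a1, Pi.add_apply, Pi.sub_apply, Pi.mul_apply,
      Pi.smul_apply, Pi.one_apply, Sm.add_apply, Sm.sub_apply, Sm.mul_apply, Sm.smul_apply,
      Sm.one_apply, cst_apply, cX_apply, cY_apply, sX_apply, sY_apply]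
    ring

/-- Translation. -/
def sft (p : P) (f : Sm P) : Sm P := Sm.of (fun z => f (z + p)) (f.smooth.comp (by fun_prop))

@[simp] lemma sft_apply (p : P) (f : Sm P) (z) : sft p f z = f (z + p) := rfl

lemma D_sft (v p : P) (f : Sm P) : Sm.D v (sft p f) = sft p (Sm.D v f) := by
  ext z
  exact congrArg (fun L : P →L[ℝ] ℝ => L v) (fderiv_comp_add_right p)

lemma GC.sft {O O' : Set P} {G G' w a b c : Sm P} (g : GC O G w a b c) {p : P} (hO : IsOpen O')
    (h : ∀ z ∈ O', z + p ∈ O) (hG : ∀ z ∈ O', G' z = sft p G z) :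
    GC O' G' (sft p w) (sft p a) (sft p b) (sft p c) := by
  have g1 := D_eq hO hG (1, 0)
  have g2 := D_eq hO g1 (1, 0)
  refine ⟨fun z hz => ?_, fun z hz => ?_, fun z hz => ?_, fun z hz => ?_⟩ <;>
    simp only [hG z hz, g1 z hz, g2 z hz, D_sft, sft_apply]
  exacts [g.iw _ (h z hz), g.ga _ (h z hz), g.c1 _ (h z hz), g.c2 _ (h z hz)]

lemma Bn.sft {O O' : Set P} {N : ℝ} {n : ℕ} {f : Sm P} (h : Bn O N n f) {p : P}
    (hp : ∀ z ∈ O', z + p ∈ O) : Bn O' N n (sft p f) := by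
  induction n generalizing f with
  | zero => exact fun z hz => h _ (hp z hz)
  | succ n ih => exact ⟨fun z hz => h.1 _ (hp z hz), D_sft _ p f ▸ ih h.2.1, D_sft _ p f ▸ ih h.2.2⟩

lemma Bn.ev {K : Set P} (hK : IsCompact K) (n : ℕ) (f : Sm P) : ∀ᶠ N in atTop, Bn K N n f := by
  have e : ∀ f : Sm P, ∀ᶠ N in atTop, ∀ z ∈ K, |f z| ≤ N := fun f => by
    obtain ⟨C, hC⟩ := hK.exists_bound_of_continuousOn f.cont.continuousOn
    filter_upwards [eventually_ge_atTop C] with N hN z hz using (hC z hz).trans hN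
  induction n generalizing f with
  | zero => exact e f
  | succ n ih => exact (e f).and ((ih _).and (ih _))

theorem main : ∃ G : Sm P, G 0 = 1 ∧ ∀ O ∈ 𝓝 (0 : P), ∀ w a b c, ¬GC O G w a b c := by
  choose T h1 h2 m ρ r l h3 h4 h5 h6 using lens
  have y0 : ∀ j : ℕ, (0 : ℝ) < (1 / 2) ^ j := fun j => by positivity
  have hS : ContDiff ℝ ∞ fun z : P => ∑' j, T j (z - (0, (1 / 2) ^ j)) :=
    contDiff_tsum_of_eventually (N := ⊤) (v := fun _ j => (1 / 2) ^ j)
      (fun j => (T j).smooth.comp (by fun_prop)) (fun _ _ => summable_geometric_two) fun k _ => by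
        rw [Nat.cofinite_eq_atTop]
        filter_upwards [eventually_ge_atTop k] with j hj z
        rw [iteratedFDeriv_comp_sub]
        exact h1 j k hj _
  have hG : ∀ z : P, z.2 ≤ 0 → (G0 + Sm.of _ hS) z = G0 z := fun z hz => by
    simp only [Sm.add_apply, Sm.of_apply, add_eq_left]
    refine (tsum_congr fun j => h2 j _ (lt_abs.mpr (Or.inr ?_))).trans tsum_zero
    simp only [Prod.snd_sub]
    linarith [y0 j]
  refine ⟨G0 + Sm.of _ hS, (hG 0 le_rfl).trans (by simp [G0]), fun O hO w a b c g => ?_⟩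
  wlog h : ∀ᶠ y in 𝓝 (0 : ℝ), y ^ 3 ≤ c (0, y) generalizing a b c
  · exact this _ _ _ g.neg ((jets hO g fun z hz => hG z hz.le).resolve_left h)
  obtain ⟨δ, δ0, hδ⟩ := Metric.mem_nhds_iff.mp hO
  have t1 := tendsto_pow_atTop_nhds_zero_of_lt_one (r := (1 / 2 : ℝ)) (by norm_num) (by norm_num)
  have t2 := tendsto_pow_atTop_atTop_of_one_lt (r := (8 : ℝ)) (by norm_num)
  have K := isCompact_closedBall (0 : P) δ
  obtain ⟨j, a1, a2, a3, a4, a5⟩ := ((t1.eventually h).and ((t1.eventually_le_const (half_pos δ0)).and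
    (t2.eventually ((Bn.ev K 0 w).and ((Bn.ev K 8 b).and (Bn.ev K 8 c)))))).exists
  have hp : ∀ z ∈ obox (2 * r j) (2 * ρ j), z + (0, (1 / 2) ^ j) ∈ Metric.ball (0 : P) δ :=
    fun z hz => by
      rw [mem_ball_zero_iff, Prod.norm_def, max_lt_iff]
      simp only [Prod.fst_add, Prod.snd_add, add_zero, Real.norm_eq_abs, abs_lt]
      have := abs_lt.mp hz.1
      have := abs_lt.mp hz.2
      refine ⟨⟨?_, ?_⟩, ?_, ?_⟩ <;> linarith [h3 j, h4 j, y0 j]
  have hp' := fun z hz => Metric.ball_subset_closedBall (hp z hz)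
  refine h6 j _ _ _ _ ⟨g.sft isOpen_obox (fun z hz => hδ (hp z hz)) fun z hz => ?_, a3.sft hp',
    a4.sft hp', a5.sft hp', le_trans (le_of_eq ?_) (by simpa using a1)⟩
  · rw [h5 j z hz, sft_apply, Sm.add_apply, Sm.of_apply, tsum_eq_single j, add_sub_cancel_right]
    · simp [G0]
    · refine fun i hi => h2 i _ (lt_abs.mpr ?_)
      have := abs_lt.mp (hz.2.trans_le (h4 j))
      simp only [Prod.snd_sub, Prod.snd_add]
      have key : ∀ {i j : ℕ}, i < j → (1 / 2 : ℝ) ^ j ≤ (1 / 2) ^ i / 2 := fun {i j} hij =>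
        (pow_le_pow_of_le_one (by norm_num) (by norm_num) hij).trans_eq (by rw [Nat.succ_eq_add_one]; ring)
      rcases hi.lt_or_gt with hi | hi
      · exact Or.inr (by linarith [key hi, y0 j])
      · exact Or.inl (by linarith [key hi, y0 j])
  · rw [← pow_mul, mul_comm, pow_mul]; norm_num

end Vale.Agent.P229
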