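import Vale.Agent.P229.Coef

/-! P229: positivity of the multiplier form on small lenses. -/

open Set MeasureTheory Filter
open scoped ContDiff Topology
noncomputable section
namespace Vale.Agent.P229
open Vale.Agent.P347

variable {ι : Type}
namespace Dt
variable {D : Dt ι}
namespace Fam
variable (h : D.Fam)
include h

lemma bw3 : Bd D.O 3 D.w := h.bw.le (by have := h.hm; omega)
lemma bK3 : Bd D.O 3 D.K := h.bK.le (by have := h.hm; omega)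
lemma bγ3 : Bd D.O 3 D.γ := h.bγ.le (by have := h.hm; omega)
lemma bu3 : Bd D.O 3 D.u := h.bu.le (by omega)
lemma bv3 : Bd D.O 3 D.v := h.bv.le (by omega)
lemma bτ : Bd D.O 3 D.τ := h.bw3.mul h.bu3
lemma bA : Bd D.O 3 D.A := h.bw3.mul h.bv3
lemma bal1 (k) : Bd D.O 2 (D.al1 k) := ((h.bτ.dy.smul _).add (h.bw3.pred.mul h.bu3.dy)).sub
  (h.bγ3.mul ((((h.bK3.mul h.bv3).mul h.bv3).add ((h.bu3.mul h.bu3).smul _)).add Bd.one)).pred
lemma bbe0 (k) : Bd D.O 2 (D.be0 k) := ((h.bA.dy.smul _).add (h.bw3.pred.mul h.bv3.dy)).sub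
  (((h.bγ3.mul h.bu3).mul h.bv3).smul _).pred
lemma bbe1 (k) : Bd D.O 2 (D.be1 k) :=
  ((h.bA.pred.mul h.bK3.dy).smul _).add (h.bK3.pred.mul (h.bbe0 k))
lemma bal2 (k) : Bd D.O 2 (D.al2 k) := ((h.bw3.pred.mul h.bv3.dy).sub (h.bA.dy.smul _)).sub
  (((h.bγ3.mul h.bu3).mul h.bv3).smul _).pred
lemma bbe2 (k) : Bd D.O 2 (D.be2 k) := ((h.bτ.dy.smul _).sub (h.bw3.pred.mul h.bu3.dy)).sub
  (h.bγ3.mul (((((h.bK3.mul h.bv3).mul h.bv3).smul _).add (h.bu3.mul h.bu3)).sub Bd.one)).pred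
lemma bT (k) {n : ℕ} (hn : n ≤ 2) {f : Fm ι} (hf : Bd D.O (n + 1) f) : Bd D.O n (D.T k f) :=
  (hf.dx.sub ((h.bτ.le (by omega)).mul hf.dy)).add
    (((((h.bal1 k).add (h.bbe2 k)).sub h.bτ.dy).le hn).mul hf.pred)
lemma bbx (k) : Bd D.O 1 (D.bx k) :=
  ((h.bX.mul (h.bT k (by omega) (h.bT k le_rfl h.bY))).smul _).sub (h.bT k (by omega) h.bY)
lemma obb (k) : Ob D.O (fun d _ => D.ρ d) (D.bb k) := Co.oY.add (h.oXρ.mulb (h.bbx k).ob)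
lemma obb1 (k) : Ob D.O 1 (D.bb k) := (h.obb k).mono fun d _ _ => h.ρ1 d
lemma occ : Ob D.O 1 D.cc := ((h.bX (n := 0)).ob.bmul h.bA.ob).smul _

lemma oqU (k) : Ob D.O (fun d _ => D.ρ d)
    (qU (D.bb k) D.cc D.τ D.A (D.al1 k) (D.al2 k) - (1 / 4 : ℝ) • D.A) := by
  convert (h.oXρ.mulb ((((((h.bbx k).dy.ob.bmul h.bA.ob).smul (1 / 2 : ℝ)).sub
    (h.bA.dx.ob.smul (1 / 4 : ℝ))).add ((h.bτ.mul h.bA).dy.ob.smul (1 / 4 : ℝ))).sub
    ((h.bA.ob.bmul (h.bal1 k).ob).smul (1 / 2 : ℝ)))).add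
    ((h.obb k).mulb ((h.bA.dy.ob.smul (1 / 2 : ℝ)).add (h.bal2 k).ob)) using 1
  simp only [qU, bb, cc, map_add, map_smul, Dv_mul, Dx_cX, Dy_cX, Dy_cY, mul_smul_comm]
  ext d z; simp; ring

lemma oqV (k) : Ob D.O (fun d _ => D.ρ d * D.r d ^ 2)
    (qV (D.bb k) D.cc D.τ D.A D.K (D.be1 k) (D.be2 k) - D.A * ((2 * k + 11 / 4) • (D.e2 * cY * cY) +
      (1 / 4 : ℝ) • (cX * cX) + (1 / 4 : ℝ) • D.e1)) := by
  have t : Ob D.O (fun d _ => D.ρ d) _ := ((h.obb k).mulb ((h.bbe0 k).ob.sub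
    (h.bA.dy.ob.smul (1 / 2 : ℝ)))).add (h.oXρ.mulb ((((((h.bbx k).dy.ob.bmul h.bA.ob).smul
    (-1 / 2 : ℝ)).add (h.bA.dx.ob.smul (1 / 4 : ℝ))).sub ((h.bτ.mul h.bA).dy.ob.smul (1 / 4 : ℝ))).add
    ((h.bA.ob.bmul (h.bbe2 k).ob).smul (1 / 2 : ℝ))))
  convert ((h.bA.ob.bmul (((h.Ky.smul (k + 3 / 2)).sub (h.K0.smul (1 / 4 : ℝ))).add
    (h.Kx.smul (1 / 4 : ℝ)))).add (h.XKy.mulb (((h.bA.ob.bmul (h.bbx k).ob).smul (k + 3 / 2)).sub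
    ((h.bτ.ob.bmul h.bA.ob).smul (1 / 4 : ℝ))))).add (t.mul' h.oK) using 1
  simp only [qV, bb, cc, be1, k0, map_add, map_smul, Dv_mul, Dx_cX, Dy_cX, Dy_cY, mul_smul_comm,
    smul_mul_assoc]
  ext d z; simp; ring

lemma oqC (k) : Ob D.O (fun d _ => D.ρ d * D.r d)
    (qC (D.bb k) D.cc D.τ D.A D.K (D.al1 k) (D.al2 k) (D.be1 k) (D.be2 k)) := by
  have w1 : ∀ d, D.r d ^ 2 ≤ D.ρ d * D.r d := fun d => by nlinarith [h.r0 d, h.rρ d]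
  have t1 : Ob D.O (fun d _ => D.ρ d * D.r d) (cX * cX) := Co.oXX.mono fun d _ _ => w1 d
  have t2 : Ob D.O (fun d _ => D.ρ d * D.r d) (cX * Dy D.K) :=
    h.XKy.mono fun d _ _ => (h.w1 d).trans (w1 d)
  have t3 : Ob D.O (fun d _ => D.ρ d * D.r d) D.K := h.oK.mono fun d _ _ => w1 d
  convert (((t1.mulb (h.bT k (n := 0) (by omega) (h.bT k (by omega) (h.bT k le_rfl h.bY))).ob).smul
    (1 / 2 : ℝ)).sub ((t2.mulb (h.bA.ob.bmul h.bA.ob)).smul ((k + 1) / 2))).add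
    ((t3.mulb ((h.bX (n := 0)).ob.bmul h.bA.ob)).mulb ((h.bA.dy.ob.sub
    ((h.bbe0 k).ob.smul (1 / 2 : ℝ))).add ((h.bal2 k).ob.smul (1 / 2 : ℝ)))) using 1
  have e1 : ∀ f, Dx f = D.T k f + D.τ * Dy f - (D.al1 k + D.be2 k - Dy D.τ) * f := fun f => by
    rw [T]; ring
  have e2 : D.T k cY = (D.al1 k + D.be2 k - Dy D.τ) * cY - D.τ := by
    rw [T, Dx_cY, Dy_cY]; ring
  simp only [qC, bb, bx, cc, be1, map_add, map_sub, map_smul, Dv_mul, Dx_cX, Dx_cY, Dy_cX, Dy_cY,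
    smul_mul_assoc]
  rw [e1 (D.T k (D.T k cY)), e1 (D.T k cY)]
  generalize D.T k (D.T k (D.T k cY)) = g3
  generalize Dy (D.T k (D.T k cY)) = g2y
  generalize D.T k (D.T k cY) = g2
  generalize Dy (D.T k cY) = g1y
  rw [e2]
  ext d z; simp; ring

theorem pos (k : ℝ) (hk : 0 ≤ k) : ∃ ρ0, 0 < ρ0 ∧ ∃ c, 0 < c ∧ ∀ d, D.ρ d ≤ ρ0 → ∀ z ∈ D.O d,
    (∀ x y : ℝ, c * D.r d ^ 2 * (x ^ 2 + y ^ 2) ≤
      qU (D.bb k) D.cc D.τ D.A (D.al1 k) (D.al2 k) d z * x ^ 2 +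
      qV (D.bb k) D.cc D.τ D.A D.K (D.be1 k) (D.be2 k) d z * y ^ 2 +
      qC (D.bb k) D.cc D.τ D.A D.K (D.al1 k) (D.al2 k) (D.be1 k) (D.be2 k) d z * (x * y)) ∧
    c * D.r d ^ 2 ≤ D.A d z ∧
    (z ∉ obox (3 / 2 * D.r d) (3 / 2 * D.ρ d) → c * D.r d ^ 2 ≤ D.K d z) := by
  obtain ⟨c, c0, hc⟩ := h.hA
  obtain ⟨C1, a1, h1⟩ := h.oqU k
  obtain ⟨C2, a2, h2⟩ := h.oqV k
  obtain ⟨C3, a3, h3⟩ := h.oqC k
  obtain ⟨C4, a4, h4⟩ := h.K0
  set c' := min c 1 with hc'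
  have b0 : 0 < c' := by positivity
  have b1 : c' ≤ c := min_le_left _ _
  have b2 : c' ≤ 1 := min_le_right _ _
  refine ⟨c' / 8 / (C1 + C2 + C3 + C4 + 1), by positivity, c' / 16, by positivity,
    fun d hd z hz => ?_⟩
  have ρ0 := h.ρ0 d
  have r0 := h.r0 d
  have r1 := h.r1' d
  have r2 : D.r d ^ 2 ≤ 1 := pow_le_one₀ r0.le r1
  rw [le_div_iff₀ (by positivity)] at hd
  have s1 : C1 * D.ρ d ≤ c' / 8 := by nlinarith
  have s2 : C2 * D.ρ d ≤ c' / 8 := by nlinarith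
  have s3 : C3 * D.ρ d ≤ c' / 8 := by nlinarith
  have s4 : C4 * D.ρ d ≤ c' / 8 := by nlinarith
  have hA := b1.trans (hc d z hz)
  refine ⟨fun x y => ?_, by nlinarith, fun hz' => ?_⟩
  · have t1 := (abs_le.mp ((h1 d z hz).trans s1)).1
    have t2 := (abs_le.mp ((h2 d z hz).trans (show _ ≤ c' / 8 * D.r d ^ 2 by
      rw [← mul_assoc]; gcongr))).1
    have t3 := (h3 d z hz).trans (show _ ≤ c' / 8 * D.r d by rw [← mul_assoc]; gcongr)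
    simp only [e1, e2, Pi.sub_apply, Pi.add_apply, Pi.mul_apply, Pi.smul_apply, Sm.sub_apply,
      Sm.add_apply, Sm.mul_apply, Sm.smul_apply, cst_apply, cX_apply, cY_apply] at t1 t2
    have t4 : c' * (1 / 4 * D.r d ^ 2) ≤ D.A d z * ((2 * k + 11 / 4) *
        (D.r d ^ 2 / D.ρ d ^ 2 * z.2 * z.2) + 1 / 4 * (z.1 * z.1) + 1 / 4 * D.r d ^ 2) := by
      refine mul_le_mul hA (le_add_of_nonneg_left ?_) (by positivity) (b0.le.trans hA)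
      have := mul_self_nonneg z.1
      have := mul_self_nonneg z.2
      rw [mul_assoc _ z.2]; positivity
    have u1 := mul_le_mul_of_nonneg_right (show c' / 8 ≤ qU (D.bb k) D.cc D.τ D.A (D.al1 k)
      (D.al2 k) d z by linarith) (sq_nonneg x)
    have u2 := mul_le_mul_of_nonneg_right (show c' / 8 * D.r d ^ 2 ≤ qV (D.bb k) D.cc D.τ D.A D.K
      (D.be1 k) (D.be2 k) d z by linarith) (sq_nonneg y)
    have u3 := neg_abs_le (qC (D.bb k) D.cc D.τ D.A D.K (D.al1 k) (D.al2 k) (D.be1 k) (D.be2 k) d z *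
      (x * y))
    rw [abs_mul, abs_mul] at u3
    have u4 := mul_le_mul_of_nonneg_right t3 (mul_nonneg (abs_nonneg x) (abs_nonneg y))
    have u5 := mul_nonneg b0.le (sq_nonneg (|x| - D.r d * |y|))
    have u6 := mul_le_mul_of_nonneg_right r2 (mul_nonneg b0.le (sq_nonneg x))
    rw [sub_sq, mul_pow, sq_abs, sq_abs] at u5
    linarith
  · have t1 := (abs_le.mp ((h4 d z hz).trans (show _ ≤ c' / 8 * D.r d ^ 2 by
      rw [← mul_assoc]; gcongr))).1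
    simp only [k0, e1, e2, Pi.sub_apply, Pi.add_apply, Pi.mul_apply, Sm.sub_apply,
      Sm.add_apply, Sm.mul_apply, cst_apply, cX_apply, cY_apply] at t1
    have t2 : 9 / 4 * D.r d ^ 2 ≤ z.1 * z.1 + D.r d ^ 2 / D.ρ d ^ 2 * z.2 * z.2 := by
      have := mul_self_nonneg z.1
      have := mul_self_nonneg z.2
      rcases not_and_or.mp hz' with h5 | h5
      · have := pow_le_pow_left₀ (by positivity) (not_lt.mp h5) 2
        rw [sq_abs] at this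
        have : 0 ≤ D.r d ^ 2 / D.ρ d ^ 2 * z.2 * z.2 := by rw [mul_assoc]; positivity
        nlinarith
      · have := pow_le_pow_left₀ (by positivity) (not_lt.mp h5) 2
        rw [sq_abs] at this
        have : D.r d ^ 2 / D.ρ d ^ 2 * (3 / 2 * D.ρ d) ^ 2 ≤ D.r d ^ 2 / D.ρ d ^ 2 * z.2 ^ 2 := by
          gcongr
        have e : D.r d ^ 2 / D.ρ d ^ 2 * (3 / 2 * D.ρ d) ^ 2 = 9 / 4 * D.r d ^ 2 := by
          field_simp; norm_num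
        nlinarith
    nlinarith [sq_nonneg (D.r d)]

end Fam
end Dt
end Vale.Agent.P229
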