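import Vale.Agent.P229.Level

/-! P229: testing against a travelling wave. -/

open Set MeasureTheory Filter
open scoped ContDiff Topology
noncomputable section
namespace Vale.Agent.P229
open Vale.Agent.P347

variable {ι : Type}

/-- Sheared box. -/
def sh (a b t : ℝ) : Set P := {z | |z.1| ≤ a ∧ |z.2 + t * z.1| ≤ b}

lemma isClosed_sh {a b t : ℝ} : IsClosed (sh a b t) :=
  (isClosed_le continuous_fst.abs continuous_const).inter
    (isClosed_le (continuous_snd.add (continuous_const.mul continuous_fst)).abs continuous_const)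

lemma sh_sub {a b t T : ℝ} (ht : |t| ≤ T) : sh a b t ⊆ box a (b + T * a) := fun z hz => by
  refine ⟨hz.1, ?_⟩
  have h1 := abs_sub (z.2 + t * z.1) (t * z.1)
  rw [add_sub_cancel_right, abs_mul] at h1
  have := mul_le_mul ht hz.1 (abs_nonneg _) ((abs_nonneg _).trans ht)
  linarith [hz.2]

lemma vol_sh {a b t : ℝ} (ha : 0 ≤ a) (hb : 0 ≤ b) : volume.real (sh a b t) = 4 * a * b := by
  have : ∀ x : ℝ, volume (Prod.mk x ⁻¹' sh a b t) =
      (Icc (-a) a).indicator (fun _ => ENNReal.ofReal (2 * b)) x := fun x => by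
    by_cases hx : x ∈ Icc (-a) a
    · have : Prod.mk x ⁻¹' sh a b t = Icc (-b - t * x) (b - t * x) := by
        ext y
        simp only [sh, mem_preimage, mem_ofPred_eq, abs_le, mem_Icc]
        exact ⟨fun h => ⟨by linarith [h.2.1], by linarith [h.2.2]⟩,
          fun h => ⟨hx, by linarith [h.1], by linarith [h.2]⟩⟩
      rw [this, indicator_of_mem hx, Real.volume_Icc]; congr 1; ring
    · have : Prod.mk x ⁻¹' sh a b t = ∅ := eq_empty_of_forall_notMem fun y hy => hx (abs_le.mp hy.1)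
      rw [this, indicator_of_notMem hx, measure_empty]
  rw [Measure.real, Measure.volume_eq_prod, Measure.prod_apply isClosed_sh.measurableSet]
  simp only [this]
  rw [lintegral_indicator measurableSet_Icc, setLIntegral_const, Real.volume_Icc,
    ← ENNReal.ofReal_mul (by positivity), ENNReal.toReal_ofReal (by nlinarith)]
  ring

/-- Normalised monomials. -/
def mon (i : ℕ) : Sm ℝ := Sm.of (fun t => t ^ i / i.factorial) (by fun_prop)

lemma D_mon (i : ℕ) : Sm.D 1 (mon (i + 1)) = mon i := by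
  ext t
  refine (sm_deriv _ t).unique (((hasDerivAt_pow (i + 1) t).div_const _).congr_deriv ?_)
  simp only [mon, Sm.of_apply, Nat.factorial_succ]
  push_cast; field_simp

variable {l t : ι → ℝ}

/-- The phase. -/
def ph (l t : ι → ℝ) : Fm ι := cst l * (cY + cst t * cX)

lemma Dx_ph : Dx (ph l t) = cst l * cst t := by simp [ph, Dv_mul]
lemma Dy_ph : Dy (ph l t) = cst l := by simp [ph, Dv_mul]

lemma cs_term (hl : ∀ d, 0 < l d) (a b : ℕ) (p : ℤ) (d : ι) :
    HasCompactSupport (term l a b p d) :=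
  HasCompactSupport.intro (isCompact_box (a := 1 / l d) (b := 1 / l d)) fun z hz => by
    by_contra h
    obtain ⟨a1, a2⟩ := term_supp h
    rw [abs_mul, abs_of_pos (hl d), ← le_div_iff₀' (hl d)] at a1 a2
    exact hz ⟨a1, a2⟩

lemma int_y (hl : ∀ d, 0 < l d) (d : ι) (a b i : ℕ) (p : ℤ) :
    ∫ z, cmp (mon (i + b)) (ph l t) d z * term l a b (p + b) d z =
      (-l d) ^ b * ∫ z, cmp (mon i) (ph l t) d z * term l a 0 p d z := by
  induction b with
  | zero => simp
  | succ b ih =>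
    rw [Nat.cast_succ, ← add_assoc p, ← Dy_term hl, Dv_apply, ibp _ (cs_term hl _ _ _ d),
      ← Dv_apply, Dv_cmp, ← add_assoc, D_mon, Dy_ph, pow_succ, mul_right_comm, ← ih]
    simp only [Pi.mul_apply, Sm.mul_apply, cst_apply, mul_right_comm _ (l d), integral_mul_const]
    ring

lemma int_x (hl : ∀ d, 0 < l d) (d : ι) (a i : ℕ) (p : ℤ) :
    ∫ z, cmp (mon (i + 1)) (ph l t) d z * term l (a + 1) 0 (p + 1) d z =
      -(l d * t d) * ∫ z, cmp (mon i) (ph l t) d z * term l a 0 p d z := by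
  rw [← Dx_term hl, Dv_apply, ibp _ (cs_term hl _ _ _ d), ← Dv_apply, Dv_cmp, D_mon, Dx_ph]
  simp only [Pi.mul_apply, Sm.mul_apply, cst_apply, mul_right_comm _ (l d * t d), integral_mul_const]
  ring

/-- Mass of the bump. -/
def I0 : ℝ := ∫ x, sg 0 x

lemma I0_pos : 0 < I0 := bs.integral_pos

lemma int_src (hl : ∀ d, 0 < l d) (d : ι) (m : ℕ) :
    |∫ z, cmp (mon (2 + (m + 2))) (ph l t) d z * term l 2 (m + 2) (-m + (m + 2 : ℕ)) d z| =
      t d ^ 2 * I0 ^ 2 := by
  have h0 := hl d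
  have e : ∫ z, cmp (mon 0) (ph l t) d z * term l 0 0 (-m - 2) d z =
      l d ^ (-(m : ℤ) - 2) * ((l d)⁻¹ * I0) * ((l d)⁻¹ * I0) := by
    have : ∫ x, sg 0 (l d * x) = (l d)⁻¹ * I0 := by
      rw [Measure.integral_comp_mul_left (fun x => sg 0 x), abs_of_pos (inv_pos.mpr h0)]; rfl
    simp only [cmp_apply, mon, Sm.of_apply, pow_zero, Nat.factorial_zero, Nat.cast_one, div_one,
      one_mul, term_apply, mul_assoc, integral_const_mul]
    rw [Measure.volume_eq_prod, integral_prod_mul (fun x => sg 0 (l d * x))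
      (fun x => sg 0 (l d * x)), this, mul_assoc]
  rw [int_y hl, show -(m : ℤ) = -m - 2 + 1 + 1 by ring, int_x hl d 1 1, int_x hl d 0 0, e,
    show -(m : ℤ) - 2 = -((m + 2 : ℕ) : ℤ) by push_cast; ring, zpow_neg, zpow_natCast, abs_mul,
    abs_pow, abs_neg, abs_of_pos h0, abs_of_nonneg]
  · field_simp
  · have := I0_pos
    rw [← mul_assoc, neg_mul_neg]
    exact mul_nonneg (mul_self_nonneg _) (by positivity)

namespace Dt
variable {D : Dt ι} {ρ r : ℝ}

theorem Fix.test (F : D.Fix ρ r) : ∃ l0, ∀ d, D.l d < l0 := by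
  have ρ0 := F.ρ0
  have r0 := F.r0
  have f := F.fam
  obtain ⟨H, L, h⟩ := F.lev D.m f.hm le_rfl (7 / 4) (by norm_num) (by norm_num)
  have L' := (L.mono (a := 3 / 2 * r) (b := 3 / 2 * ρ) (by linarith)
    (by linarith)).extend (F.en le_rfl (by norm_num) (by norm_num) L h)
  obtain ⟨q1, q2, -⟩ := h.eqs
  set U := Dy^[D.m + 1] D.u with hU
  set V := Dy^[D.m + 1] D.v with hV
  set H' := fun d z => H d z + |U d z| + |V d z| with hH'
  obtain ⟨c, c0, hc⟩ := f.hA
  have h0 : ∀ d, (0 : P) ∈ D.O d := fun d => F.hO ▸ ⟨by simpa using r0, by simpa using ρ0⟩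
  have at0 : ∀ {g : Fm ι}, Ob D.O 1 g → ∃ C, 0 ≤ C ∧ ∀ d, |g d 0| ≤ C := fun ⟨C, a, b⟩ =>
    ⟨C, a, fun d => by simpa using b d 0 (h0 d)⟩
  have oc : ∀ {a : ι → ℝ} {Q : ι → Set P} {C : ℝ}, 0 ≤ C → (∀ d, |a d| ≤ C) → Ob Q 1 (cst a) :=
    fun a b => ⟨_, a, fun d _ _ => by simpa using b d⟩
  set σ : ι → ℝ := fun d => if 0 ≤ D.τ d 0 then -√(-D.K d 0) else √(-D.K d 0) with hσ
  set t : ι → ℝ := fun d => D.τ d 0 - σ d * D.A d 0 with ht
  have K0 : ∀ d, 0 ≤ -D.K d 0 := fun d => by linarith [F.neg d, sq_nonneg r]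
  have σ2 : ∀ d, σ d ^ 2 = -D.K d 0 := fun d => by
    simp only [hσ]; split_ifs <;> simp [Real.sq_sqrt (K0 d)]
  have t2 : ∀ d, r ^ 2 / 2 * c ^ 2 ≤ t d ^ 2 := fun d => by
    have a1 := hc d 0 (h0 d)
    have a2 : D.τ d 0 * σ d ≤ 0 := by
      simp only [hσ]; split_ifs with h1
      · exact mul_nonpos_of_nonneg_of_nonpos h1 (neg_nonpos.mpr (Real.sqrt_nonneg _))
      · exact mul_nonpos_of_nonpos_of_nonneg (not_le.mp h1).le (Real.sqrt_nonneg _)
    have a3 : r ^ 2 / 2 * c ^ 2 ≤ σ d ^ 2 * D.A d 0 ^ 2 := by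
      rw [σ2]
      exact mul_le_mul (by linarith [F.neg d]) (pow_le_pow_left₀ c0.le a1 2) (by positivity) (K0 d)
    simp only [ht]
    nlinarith [sq_nonneg (D.τ d 0), mul_nonneg (neg_nonneg.mpr a2) (c0.le.trans a1)]
  obtain ⟨C1, c1, b1⟩ := at0 f.bK.ob
  obtain ⟨C2, c2, b2⟩ := at0 f.bτ.ob
  obtain ⟨C3, c3, b3⟩ := at0 f.bA.ob
  have b4 : ∀ d, |σ d| ≤ C1 + 1 := fun d => by
    nlinarith [σ2 d, neg_le_abs (D.K d 0), b1 d, sq_abs (σ d), sq_nonneg (|σ d| - 1)]
  set T := C2 + (C1 + 1) * C3 with hT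
  have T0 : 0 ≤ T := by positivity
  have b5 : ∀ d, |t d| ≤ T := fun d => (abs_sub _ _).trans (add_le_add (b2 d)
    ((abs_mul _ _).trans_le (mul_le_mul (b4 d) (b3 d) (abs_nonneg _) (by positivity))))
  set μ : ι → ℝ := fun d => √(D.l d) with hμ
  have μ1 : ∀ d, 1 ≤ μ d := fun d => Real.one_le_sqrt.mpr (f.l2 d)
  have μ2 : ∀ d, μ d * μ d = D.l d := fun d => Real.mul_self_sqrt (f.l0 d).le
  set hh : Sm ℝ := mon (2 + (D.m + 2)) * Sm.of (fun x => bt (x / (1 + T)))
    (bt.smooth.comp (contDiff_id.div_const _)) with hhh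
  have hh0 : ∀ x, 2 * (1 + T) < |x| → hh x = 0 := fun x hx => by
    simp only [hhh, Sm.mul_apply, Sm.of_apply]
    rw [bt_zero, mul_zero]
    rwa [abs_div, abs_of_pos (by positivity : 0 < 1 + T), lt_div_iff₀ (by positivity)]
  set Φ := cmp bt (cst μ * cX) * cmp hh (ph D.l t) with hΦ
  set S := fun d => sh (2 / μ d) (2 * (1 + T) / D.l d) (t d) with hS
  set Q := fun d => S d ∩ box (3 / 2 * r) (3 / 2 * ρ) with hQ
  have QO : ∀ d, Q d ⊆ D.O d := fun d => inter_subset_right.trans (F.sub (by norm_num) d)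
  have b : ∀ {g}, Ob D.O 1 g → Ob Q 1 g := fun hg => hg.sub_set QO
  have bc : ∀ {g : Sm ℝ} {a : ℝ} (w : Fm ι), (∀ x, a < |x| → g x = 0) → Ob Q 1 (cmp g w) :=
    fun w hg => by
      obtain ⟨C, a, b⟩ := bdd_of hg
      exact ⟨C, a, fun d z _ => by simpa using b _⟩
  have oΦ : Ob Q 1 Φ := (bc _ bt_zero).bmul (bc _ hh0)
  have oμ : Ob Q (fun d _ => μ d) (cst μ) :=
    Ob.of_le fun d _ _ => (abs_of_pos (one_pos.trans_le (μ1 d))).le
  have oU : Ob Q H' U := ⟨1, zero_le_one, fun d z _ => by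
    simp only [hH']; linarith [L.one d z, abs_nonneg (V d z)]⟩
  have oV : Ob Q H' V := ⟨1, zero_le_one, fun d z _ => by
    simp only [hH']; linarith [L.one d z, abs_nonneg (U d z)]⟩
  have up : ∀ {g}, Ob (fun _ => box (7 / 4 * r) (7 / 4 * ρ)) H g → Ob Q H' g := fun hg =>
    (hg.sub_set fun d => inter_subset_right.trans (box_mono (by linarith)
      (by linarith))).mono fun d z _ => by
      simp only [hH']; linarith [abs_nonneg (U d z), abs_nonneg (V d z)]
  have oσ : Ob Q 1 (cst σ) := oc (by positivity) b4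
  have lip : ∀ {g : Fm ι}, Bd D.O 1 g → Ob Q (fun d _ => μ d) (cst D.l * (g - cst fun d => g d 0)) :=
    fun {g} hg => by
      obtain ⟨C, a1, a2⟩ := Bd.lip hg
      refine ⟨C * (4 + 4 * T), by positivity, fun d z hz => ?_⟩
      have a3 := sh_sub (b5 d) hz.1
      have a4 := μ1 d
      have a5 : 2 * (1 + T) / D.l d ≤ 2 * (1 + T) / μ d := by
        rw [← μ2 d]; gcongr; exact le_mul_of_one_le_left (by positivity) a4
      rw [Pi.mul_apply, Sm.mul_apply, cst_apply, abs_mul, abs_of_pos (f.l0 d)]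
      calc _ ≤ D.l d * (C * (2 / μ d + (2 * (1 + T) / μ d + T * (2 / μ d)))) :=
            mul_le_mul_of_nonneg_left ((a2 d z (QO d hz)).trans (mul_le_mul_of_nonneg_left
              (add_le_add a3.1 (a3.2.trans (by linarith))) a1)) (f.l0 d).le
        _ = _ := by rw [← μ2 d]; field_simp; ring
  set R1 := Dy^[D.m + 1] D.R1 - (D.τ * Dy U + D.K * D.A * Dy V + D.al1 (D.m + 1) * U +
    D.be1 (D.m + 1) * V + D.A * D.v * D.w * D.src D.m) with hR1
  set R2 := Dy^[D.m + 1] D.R2 - (D.τ * Dy V - D.A * Dy U + D.al2 (D.m + 1) * U +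
    D.be2 (D.m + 1) * V) with hR2
  set E := cst μ * ((cmp (Sm.D 1 bt) (cst μ * cX) * cmp hh (ph D.l t)) * (U + cst σ * V)) +
    cmp bt (cst μ * cX) * cmp (Sm.D 1 hh) (ph D.l t) *
      (cst D.l * (D.A - cst fun d => D.A d 0) * (cst σ * U) -
        cst D.l * (D.τ - cst fun d => D.τ d 0) * (U + cst σ * V) -
        cst D.l * (D.K * D.A - cst fun d => (D.K * D.A) d 0) * V) +
    Φ * ((D.A * D.A - cst fun d => (D.A * D.A) d 0) * D.src D.m + R1 + cst σ * R2 +
      (D.al1 (D.m + 1) + cst σ * D.al2 (D.m + 1) - Dy D.τ + cst σ * Dy D.A) * U +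
      (D.be1 (D.m + 1) + cst σ * D.be2 (D.m + 1) - Dy (D.K * D.A) - cst σ * Dy D.τ) * V) with hE
  obtain ⟨C, C0, hC⟩ : Ob Q (fun d z => μ d * H' d z) E := by
    have bKA := f.bK3.mul f.bA
    refine ((oμ.mul' (((bc _ (D1_zero bt_zero)).bmul (bc _ hh0)).bmul (oU.add (oσ.bmul oV)))).add
      (((bc _ bt_zero).bmul (bc _ (D1_zero hh0))).bmul ((((lip (f.bA.le (by omega))).mul'
      (oσ.bmul oU)).sub ((lip (f.bτ.le (by omega))).mul' (oU.add (oσ.bmul oV)))).sub
      ((lip (bKA.le (by omega))).mul' oV)))).add ((oΦ.bmul ?_).mono fun d z _ =>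
        le_mul_of_one_le_left (zero_le_one.trans (L'.one d z)) (μ1 d))
    exact ((((up (h.osrc ((Bd.lip ((f.bA.mul f.bA).le (by omega))).sub_set h.hQ))).add (up q1)).add
      (oσ.bmul (up q2))).add (((((b (f.bal1 _).ob).add (oσ.bmul (b (f.bal2 _).ob))).sub
      (b f.bτ.dy.ob)).add (oσ.bmul (b f.bA.dy.ob))).bmul oU)).add (((((b (f.bbe1 _).ob).add
      (oσ.bmul (b (f.bbe2 _).ob))).sub (b bKA.dy.ob)).sub (oσ.bmul (b f.bτ.dy.ob))).bmul oV)
  set Pf := Φ * (U + cst σ * V) with hPf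
  set Qf := -(Φ * (D.τ * U + D.K * D.A * V + cst σ * (D.τ * V - D.A * U))) with hQf
  have id1 : ∀ d, ∀ z ∈ D.O d, Dx Pf d z + Dy Qf d z =
      D.A d 0 ^ 2 * (Φ d z * D.src D.m d z) + E d z := fun d z hz => by
    have f1 := h.zu (D.m + 1) d z hz
    have f2 := h.zv (D.m + 1) d z hz
    have f3 := σ2 d
    have f4 : D.A d z = D.w d z * D.v d z := rfl
    simp only [hPf, hQf, hE, hR1, hR2, hΦ, ← hU, ← hV, map_add, map_sub, map_neg, Dv_mul, Dv_cmp,
      Dv_cst, Dx_ph, Dy_ph, Dx_cX, Dy_cX, Pi.sub_apply, Pi.add_apply, Pi.mul_apply, Pi.neg_apply,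
      Pi.zero_apply, Pi.one_apply, Sm.sub_apply, Sm.add_apply, Sm.mul_apply, Sm.neg_apply,
      Sm.zero_apply, Sm.one_apply, cst_apply, ht] at f1 f2 ⊢
    rw [sub_eq_zero] at f1 f2
    rw [f1, f2]
    generalize cmp bt (cst μ * cX) d z = φ1
    generalize cmp hh (ph D.l fun d => D.τ d 0 - σ d * D.A d 0) d z = φ2
    generalize cmp (Sm.D 1 hh) (ph D.l fun d => D.τ d 0 - σ d * D.A d 0) d z = φ3
    linear_combination (-(φ1 * φ3 * D.l d * D.A d 0 * V d z)) * f3 -
      (φ1 * φ2 * D.src D.m d z * D.A d z) * f4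
  obtain ⟨C', hC'⟩ := L'.bd
  have I0p := I0_pos
  set δ := c ^ 2 * (r ^ 2 / 2 * c ^ 2 * I0 ^ 2) with hδ
  have δ0 : 0 < δ := by positivity
  set η := δ / (2 * (C + 1) * (|C'| + 1)) with hη
  have η0 : 0 < η := by positivity
  have Tg : Tendsto (fun x : ℝ => (√x)⁻¹) atTop (𝓝 0) := Real.tendsto_sqrt_atTop.inv_tendsto_atTop
  obtain ⟨l0, hl0⟩ := eventually_atTop.mp (((Tg.const_mul 2).eventually_le_const
    (by simpa using r0 : 2 * 0 < 3 / 2 * r)).and (((Tg.const_mul (2 + 4 * T)).eventually_le_const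
    (by simpa using ρ0 : (2 + 4 * T) * 0 < 3 / 2 * ρ)).and
    ((Tg.const_mul (C * (4 * (1 + T) / η))).eventually_lt_const
    (by simpa using δ0 : C * (4 * (1 + T) / η) * 0 < δ / 2))))
  refine ⟨l0, fun d => not_le.mp fun hd => ?_⟩
  obtain ⟨g1, g2, g3⟩ := hl0 _ hd
  change 2 * (μ d)⁻¹ ≤ _ at g1
  change _ * (μ d)⁻¹ ≤ _ at g2
  change _ * (μ d)⁻¹ < _ at g3
  have m1 := μ1 d
  have l0' := f.l0 d
  have SQ : S d ⊆ box (3 / 2 * r) (3 / 2 * ρ) := (sh_sub (b5 d)).trans (box_mono g1 (by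
    have a5 : 2 * (1 + T) / D.l d ≤ 2 * (1 + T) / μ d := by
      rw [← μ2 d]; gcongr; exact le_mul_of_one_le_left (by positivity) m1
    simp only [div_eq_mul_inv] at a5 ⊢
    linarith))
  have cS : IsCompact (S d) := isCompact_box.of_isClosed_subset isClosed_sh SQ
  have mS : MeasurableSet (S d) := isClosed_sh.measurableSet
  have iS : ∀ {g : P → ℝ}, Continuous g → IntegrableOn g (S d) := fun hg =>
    hg.continuousOn.integrableOn_compact cS
  have z1 : ∀ z ∉ S d, Φ d z = 0 := fun z hz => by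
    simp only [hΦ, ph, Pi.mul_apply, Pi.add_apply, Sm.mul_apply, Sm.add_apply, cmp_apply, cst_apply,
      cX_apply, cY_apply]
    rcases not_and_or.mp hz with a | a
    · rw [bt_zero, zero_mul]
      rwa [abs_mul, abs_of_pos (by positivity), ← div_lt_iff₀' (by positivity), ← not_le]
    · rw [hh0, mul_zero]
      rwa [abs_mul, abs_of_pos l0', ← div_lt_iff₀' l0', ← not_le]
  have z2 : ∀ z ∉ S d, Pf d z = 0 := fun z hz => by simp [hPf, z1 z hz]
  have z3 : ∀ z ∉ S d, Qf d z = 0 := fun z hz => by simp [hQf, z1 z hz]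
  have i0 := int_div (HasCompactSupport.intro cS z2) (HasCompactSupport.intro cS z3)
  rw [← setIntegral_eq_integral_of_forall_compl_eq_zero (s := S d) fun z hz => by
    rw [D_zero isClosed_sh.isOpen_compl z2 _ z hz, D_zero isClosed_sh.isOpen_compl z3 _ z hz,
      add_zero]] at i0
  have i1 : ∫ z in S d, (D.A d 0 ^ 2 * (Φ d z * D.src D.m d z) + E d z) = 0 :=
    (setIntegral_congr_fun mS fun z hz => (id1 d z (QO d ⟨hz, SQ hz⟩)).symm).trans i0
  rw [integral_add (iS (g := fun z => D.A d 0 ^ 2 * (Φ d z * D.src D.m d z))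
    (continuous_const.mul ((Φ d).cont.mul (D.src D.m d).cont))) (iS (E d).cont),
    integral_const_mul, setIntegral_eq_integral_of_forall_compl_eq_zero
      fun z hz => by rw [z1 z hz, zero_mul]] at i1
  have i2 : |∫ z, Φ d z * D.src D.m d z| = t d ^ 2 * I0 ^ 2 := by
    rw [← int_src f.l0 d D.m, ← abs_neg, ← integral_neg]
    congr 1
    refine integral_congr_ae (Eventually.of_forall fun z => ?_)
    simp only [src, Pi.neg_apply, Sm.neg_apply, mul_neg, neg_neg]
    by_cases hz : term D.l 2 (D.m + 2) (-D.m + (D.m + 2 : ℕ)) d z = 0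
    · rw [hz, mul_zero, mul_zero]
    · obtain ⟨a1, a2⟩ := term_supp hz
      congr 1
      simp only [hΦ, hhh, ph, Pi.mul_apply, Pi.add_apply, Sm.mul_apply, Sm.add_apply, cmp_apply,
        cst_apply, cX_apply, cY_apply, Sm.of_apply]
      rw [bt_one, bt_one, one_mul, mul_one]
      · rw [abs_div, abs_of_pos (by positivity : 0 < 1 + T), div_le_one (by positivity), mul_add,
          mul_left_comm]
        refine (abs_add_le _ _).trans (add_le_add a2 ?_)
        rw [abs_mul]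
        exact (mul_le_of_le_one_right (abs_nonneg _) a1).trans (b5 d)
      · refine le_trans ?_ a1
        rw [abs_mul, abs_mul, abs_of_pos l0', abs_of_pos (by positivity), ← μ2 d]
        gcongr; exact le_mul_of_one_le_left (by positivity) m1
  have i3 : |∫ z in S d, E d z| ≤ C * (η * |C'|) + C * (4 * (1 + T) / η) * (μ d)⁻¹ := by
    have cH := L'.cont d
    refine abs_integral_le_integral_abs.trans ((setIntegral_mono_on (g := fun z =>
      C * (η * H' d z ^ 2) + C * (μ d ^ 2 / (4 * η))) (iS (E d).cont.abs)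
      (iS (by fun_prop)) mS fun z hz => ?_).trans ?_)
    · refine (hC d z ⟨hz, SQ hz⟩).trans ?_
      rw [← mul_add]
      refine mul_le_mul_of_nonneg_left ?_ C0
      have := amgm η0 (H' d z) (-μ d)
      rw [neg_sq] at this
      linarith
    · rw [integral_add (iS (by fun_prop)) (iS continuous_const), integral_const_mul,
        integral_const_mul, setIntegral_const, hS, vol_sh (by positivity) (by positivity), smul_eq_mul]
      refine add_le_add ?_ (le_of_eq (by rw [← μ2 d]; field_simp; ring))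
      gcongr
      exact ((setIntegral_mono_set (intOn (cH.pow 2)) (Eventually.of_forall fun _ => sq_nonneg _)
        SQ.eventuallyLE).trans (hC' d)).trans (le_abs_self _)
  have i4 : δ ≤ |∫ z in S d, E d z| := by
    rw [eq_neg_of_add_eq_zero_right i1, abs_neg, abs_mul, i2, abs_sq]
    exact mul_le_mul (pow_le_pow_left₀ c0.le (hc d 0 (h0 d)) 2)
      (mul_le_mul_of_nonneg_right (t2 d) (sq_nonneg _)) (by positivity) (sq_nonneg _)
  have i5 : C * (η * |C'|) ≤ δ / 2 := by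
    calc _ ≤ (C + 1) * (η * (|C'| + 1)) := by gcongr <;> linarith
      _ = _ := by rw [hη]; field_simp
  linarith

end Dt
end Vale.Agent.P229
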